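import Crest.Agent.X212.Dsc37.Tw

-- ▼ part X212/Lt44/Lin
section

/-!
# Combinatorial loop theorem, TOP: sums over `ZMod 2`, duality, even subgraphs (helper44)
-/

set_option autoImplicit false

namespace Crest.Agent.X212.Lt44

open Classical in
/-- the sum of `a` over the elements with `P` -/
noncomputable def sm {ι : Type*} [Fintype ι] (P : ι → Prop) (a : ι → ZMod 2) : ZMod 2 :=
  ∑ j, if P j then a j else 0

theorem z2 (x : ZMod 2) : x + x = 0 := by revert x; decide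
theorem z2c (x : ZMod 2) : x = 0 ∨ x = 1 := by revert x; decide
theorem z2e {x y : ZMod 2} : x + y = 0 ↔ x = y := by revert x y; decide

section
variable {ι κ : Type*} [Fintype ι] [Fintype κ]

theorem sm_congr {P Q : ι → Prop} {a b : ι → ZMod 2} (h : ∀ j, P j ↔ Q j)
    (h' : ∀ j, Q j → a j = b j) : sm P a = sm Q b := by
  unfold sm
  refine Finset.sum_congr rfl fun j _ => ?_
  by_cases hq : Q j
  · rw [if_pos hq, if_pos ((h j).2 hq), h' j hq]
  · rw [if_neg hq, if_neg (fun hp => hq ((h j).1 hp))]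

theorem sm_zero {P : ι → Prop} {a : ι → ZMod 2} (h : ∀ j, P j → a j = 0) : sm P a = 0 := by
  unfold sm
  refine Finset.sum_eq_zero fun j _ => ?_
  split_ifs with hp
  · exact h j hp
  · rfl

theorem sm_add (P : ι → Prop) (a b : ι → ZMod 2) :
    sm P (fun j => a j + b j) = sm P a + sm P b := by
  unfold sm
  rw [← Finset.sum_add_distrib]
  refine Finset.sum_congr rfl fun j _ => ?_
  split_ifs <;> simp

theorem sm_mul (P : ι → Prop) (a : ι → ZMod 2) (c : ZMod 2) :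
    sm P a * c = sm P (fun j => a j * c) := by
  unfold sm
  rw [Finset.sum_mul]
  refine Finset.sum_congr rfl fun j _ => ?_
  split_ifs <;> simp

theorem mul_sm (P : ι → Prop) (a : ι → ZMod 2) (c : ZMod 2) :
    c * sm P a = sm P (fun j => c * a j) := by
  rw [mul_comm, sm_mul]; exact sm_congr (fun _ => Iff.rfl) fun j _ => mul_comm _ _

theorem sm_one {P : ι → Prop} {x : ι} (h : ∀ j, P j ↔ j = x) (a : ι → ZMod 2) :
    sm P a = a x := by
  unfold sm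
  rw [Finset.sum_eq_single x]
  · rw [if_pos ((h x).2 rfl)]
  · intro j _ hj; rw [if_neg (fun hp => hj ((h j).1 hp))]
  · simp

/-- split a sum along a predicate -/
theorem sm_split (P Q : ι → Prop) (a : ι → ZMod 2) :
    sm P a = sm (fun j => P j ∧ Q j) a + sm (fun j => P j ∧ ¬ Q j) a := by
  unfold sm
  rw [← Finset.sum_add_distrib]
  refine Finset.sum_congr rfl fun j _ => ?_
  by_cases hp : P j <;> by_cases hq : Q j <;> simp [hp, hq]

theorem sm_two {P : ι → Prop} {x y : ι} (hxy : x ≠ y) (h : ∀ j, P j ↔ j = x ∨ j = y)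
    (a : ι → ZMod 2) : sm P a = a x + a y := by
  rw [sm_split P (fun j => j = x), sm_one (x := x), sm_one (x := y)]
  · intro j; rw [h]; constructor
    · rintro ⟨h1 | h1, h2⟩
      · exact absurd h1 h2
      · exact h1
    · rintro rfl; exact ⟨Or.inr rfl, hxy.symm⟩
  · intro j; rw [h]; constructor
    · exact fun h1 => h1.2
    · rintro rfl; exact ⟨Or.inl rfl, rfl⟩

theorem sm_three {P : ι → Prop} {x y z : ι} (hxy : x ≠ y) (hxz : x ≠ z) (hyz : y ≠ z)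
    (h : ∀ j, P j ↔ j = x ∨ j = y ∨ j = z) (a : ι → ZMod 2) : sm P a = a x + a y + a z := by
  rw [sm_split P (fun j => j = x), sm_one (x := x), sm_two (x := y) (y := z) hyz, add_assoc]
  · intro j; rw [h]; constructor
    · rintro ⟨h1 | h1, h2⟩
      · exact absurd h1 h2
      · exact h1
    · rintro (rfl | rfl)
      · exact ⟨Or.inr (Or.inl rfl), hxy.symm⟩
      · exact ⟨Or.inr (Or.inr rfl), hxz.symm⟩
  · intro j; rw [h]; constructor
    · exact fun h1 => h1.2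
    · rintro rfl; exact ⟨Or.inl rfl, rfl⟩

/-- drop the terms that vanish -/
theorem sm_drop {P Q : ι → Prop} {a : ι → ZMod 2} (h : ∀ j, P j → ¬ Q j → a j = 0) :
    sm P a = sm (fun j => P j ∧ Q j) a := by
  rw [sm_split P Q, sm_zero (P := fun j => P j ∧ ¬ Q j) fun j hj => h j hj.1 hj.2, add_zero]

theorem sm_comm (P : ι → Prop) (R : ι → κ → Prop) (Q : κ → Prop) (u : ι → κ → ZMod 2)
    (h : ∀ i j, P i → R i j → Q j) :
    sm P (fun i => sm (R i) (u i)) = sm Q (fun j => sm (fun i => P i ∧ R i j) (fun i => u i j)) := by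
  classical
  have h1 : sm P (fun i => sm (R i) (u i)) = ∑ i, ∑ j, if P i ∧ R i j then u i j else 0 := by
    unfold sm
    refine Finset.sum_congr rfl fun i _ => ?_
    by_cases hp : P i
    · simp only [hp, if_true, true_and]
    · simp [hp]
  have h2 : sm Q (fun j => sm (fun i => P i ∧ R i j) (fun i => u i j))
      = ∑ j, ∑ i, if P i ∧ R i j then u i j else 0 := by
    unfold sm
    refine Finset.sum_congr rfl fun j _ => ?_
    by_cases hq : Q j
    · simp only [hq, if_true]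
    · rw [if_neg hq]
      refine (Finset.sum_eq_zero fun i _ => ?_).symm
      rw [if_neg fun hh => hq (h i j hh.1 hh.2)]
  rw [h1, h2, Finset.sum_comm]

/-- a constant summed over a two element set -/
theorem sm_const_two {P : ι → Prop} (h : ∃ x y, x ≠ y ∧ ∀ j, P j ↔ j = x ∨ j = y) (c : ZMod 2) :
    sm P (fun _ => c) = 0 := by
  obtain ⟨x, y, hxy, h⟩ := h
  rw [sm_two hxy h, z2]

/-- DUALITY: what kills all cycles is a coboundary -/
theorem d0 (Q : ι → Prop) (P : κ → Prop) (R : ι → κ → Prop) (α : κ → ZMod 2)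
    (h : ∀ a : κ → ZMod 2, (∀ i, Q i → sm (fun j => P j ∧ R i j) a = 0) →
      sm P (fun j => α j * a j) = 0) :
    ∃ β : ι → ZMod 2, ∀ j, P j → α j = sm (fun i => Q i ∧ R i j) β := by
  classical
  have : Fact (Nat.Prime 2) := ⟨Nat.prime_two⟩
  let L : (ι → ZMod 2) →ₗ[ZMod 2] (κ → ZMod 2) :=
    { toFun := fun β j => if P j then sm (fun i => Q i ∧ R i j) β else 0
      map_add' := fun β γ => by
        funext j
        by_cases hp : P j
        · simp only [hp, if_true, Pi.add_apply]; exact sm_add _ _ _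
        · simp [hp]
      map_smul' := fun c β => by
        funext j
        by_cases hp : P j
        · simp only [hp, if_true, Pi.smul_apply, smul_eq_mul, RingHom.id_apply]
          exact (mul_sm _ _ _).symm
        · simp [hp] }
  let α' : κ → ZMod 2 := fun j => if P j then α j else 0
  by_cases hα : α' ∈ LinearMap.range L
  · obtain ⟨β, hβ⟩ := hα
    refine ⟨β, fun j hj => ?_⟩
    have := congrFun hβ j
    simp only [L, α', LinearMap.coe_mk, AddHom.coe_mk, hj, if_true] at this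
    exact this.symm
  exfalso
  obtain ⟨f, hf, hf'⟩ := Submodule.exists_dual_map_eq_bot_of_notMem hα inferInstance
  let a : κ → ZMod 2 := fun j => f (Pi.single j 1)
  have hfa : ∀ x : κ → ZMod 2, f x = ∑ j, x j * a j := by
    intro x
    conv_lhs => rw [← Finset.univ_sum_single x, map_sum]
    refine Finset.sum_congr rfl fun j _ => ?_
    have : (Pi.single j (x j) : κ → ZMod 2) = x j • (Pi.single j 1 : κ → ZMod 2) := by
      rw [← Pi.single_smul, smul_eq_mul, mul_one]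
    rw [this, map_smul, smul_eq_mul]
  apply hf
  rw [hfa]
  have h1 : ∑ j, α' j * a j = sm P (fun j => α j * a j) := by
    unfold sm
    refine Finset.sum_congr rfl fun j _ => ?_
    by_cases hp : P j <;> simp [α', hp]
  rw [h1]
  refine h a fun i hi => ?_
  have h2 : f (L (Pi.single i 1)) = 0 := by
    have : f (L (Pi.single i 1)) ∈ (LinearMap.range L).map f :=
      Submodule.mem_map_of_mem (LinearMap.mem_range_self _ _)
    rwa [hf', Submodule.mem_bot] at this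
  rw [hfa] at h2
  rw [← h2]
  unfold sm
  refine Finset.sum_congr rfl fun j _ => ?_
  by_cases hp : P j
  · have h3 : L (Pi.single i 1) j = sm (fun i => Q i ∧ R i j) (Pi.single i 1) := by
      simp [L, hp]
    rw [h3]
    by_cases hr : R i j
    · rw [if_pos ⟨hp, hr⟩, sm_drop (Q := fun i' => i' = i) (fun i' _ h' => by simp [h']),
        sm_one (x := i) (fun i' => ⟨fun h' => h'.2, fun h' => ⟨h' ▸ ⟨hi, hr⟩, h'⟩⟩)]
      simp
    · rw [if_neg fun hh => hr hh.2, sm_zero, zero_mul]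
      intro i' hi'
      have : i' ≠ i := fun h' => hr (h' ▸ hi'.2)
      simp [this]
  · rw [if_neg fun hh => hp hh.1]
    simp [L, hp]

/-- EVEN SUBGRAPH: `B` a non-empty set of edges, each in exactly two faces, no face with exactly
one edge of `B`: there is a non-zero function on `B` which is even on every face. -/
theorem even_sub (B : ι → Prop) (R : ι → κ → Prop) (hB : ∃ e, B e)
    (h2 : ∀ e, B e → ∃ x y, x ≠ y ∧ ∀ t, R e t ↔ t = x ∨ t = y)
    (hf : ∀ t e, B e → R e t → ∃ e', e' ≠ e ∧ B e' ∧ R e' t) :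
    ∃ a : ι → ZMod 2, (∀ e, ¬ B e → a e = 0) ∧ (∃ e, a e ≠ 0) ∧
      ∀ t, sm (fun e => B e ∧ R e t) a = 0 := by
  classical
  have : Fact (Nat.Prime 2) := ⟨Nat.prime_two⟩
  by_contra hcon
  push Not at hcon
  obtain ⟨e0, he0⟩ := hB
  obtain ⟨t0, t1, -, ht0⟩ := h2 e0 he0
  have hR0 : R e0 t0 := (ht0 t0).2 (Or.inl rfl)
  let sB : Finset ι := Finset.univ.filter B
  let sT : Finset κ := Finset.univ.filter fun t => ∃ e, B e ∧ R e t
  have hcard : sT.card ≤ sB.card := by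
    have h := Finset.card_mul_le_card_mul (s := sT) (t := sB) (fun t e => R e t) (m := 2) (n := 2)
      (fun t ht => by
        obtain ⟨e, he, hr⟩ := (Finset.mem_filter.1 ht).2
        obtain ⟨e', hne, he', hr'⟩ := hf t e he hr
        refine Finset.one_lt_card.2 ⟨e', ?_, e, ?_, hne⟩ <;>
          simp [Finset.mem_bipartiteAbove, sB, *])
      (fun e he => by
        obtain ⟨x, y, -, hxy⟩ := h2 e (Finset.mem_filter.1 he).2
        refine le_trans (Finset.card_le_card (t := {x, y}) fun t ht => ?_) Finset.card_le_two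
        have := (hxy t).1 ((Finset.mem_bipartiteBelow _).1 ht).2
        simpa using this)
    omega
  let ex : (sB → ZMod 2) → ι → ZMod 2 := fun x e => if h : e ∈ sB then x ⟨e, h⟩ else 0
  let L : (sB → ZMod 2) →ₗ[ZMod 2] (sT.erase t0 → ZMod 2) :=
    { toFun := fun x t => sm (fun e => B e ∧ R e t.1) (ex x)
      map_add' := fun x y => by
        funext t
        rw [Pi.add_apply, ← sm_add]
        refine sm_congr (fun _ => Iff.rfl) fun e _ => ?_
        by_cases h : e ∈ sB <;> simp [ex, h]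
      map_smul' := fun c x => by
        funext t
        rw [Pi.smul_apply, smul_eq_mul, RingHom.id_apply, mul_sm]
        refine sm_congr (fun _ => Iff.rfl) fun e _ => ?_
        by_cases h : e ∈ sB <;> simp [ex, h] }
  have hinj : Function.Injective L := by
    rw [injective_iff_map_eq_zero]
    intro x hx
    by_contra hx0
    obtain ⟨e1, he1⟩ := Function.ne_iff.1 hx0
    obtain ⟨t, ht⟩ := hcon (ex x) (fun e he => by simp [ex, sB, he])
      ⟨e1.1, by simpa [ex] using he1⟩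
    have hoth : ∀ t', t' ≠ t0 → sm (fun e => B e ∧ R e t') (ex x) = 0 := by
      intro t' ht'
      by_cases hm : t' ∈ sT
      · exact congrFun hx ⟨t', Finset.mem_erase.2 ⟨ht', hm⟩⟩
      · refine sm_zero fun e he => absurd ?_ hm
        exact Finset.mem_filter.2 ⟨Finset.mem_univ _, e, he⟩
    have htt : t = t0 := by_contra fun h => ht (hoth t h)
    subst htt
    have hs := sm_comm B R (fun _ => True) (fun e _ => ex x e) fun _ _ _ _ => trivial
    rw [sm_zero (fun e he => sm_const_two (h2 e he) _), sm_drop (Q := fun t' => t' = t)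
      (fun t' _ h' => hoth t' h'), sm_one (x := t) (by simp)] at hs
    exact ht hs.symm
  have hle := LinearMap.finrank_le_finrank_of_injective hinj
  have hm : t0 ∈ sT := Finset.mem_filter.2 ⟨Finset.mem_univ _, e0, he0, hR0⟩
  simp only [Module.finrank_fintype_fun_eq_card, Fintype.card_coe,
    Finset.card_erase_of_mem hm] at hle
  have := Finset.card_pos.2 ⟨t0, hm⟩
  omega

end

section
variable {V : Type*} [DecidableEq V]

/-- exactly two sets strictly between -/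
theorem between {s T : Finset V} (h : s ⊆ T) (hc : T.card = s.card + 2) :
    ∃ t1 t2 : Finset V, t1 ≠ t2 ∧
      ∀ t, (s ⊆ t ∧ t ⊆ T ∧ t.card = s.card + 1) ↔ t = t1 ∨ t = t2 := by
  have h2 : (T \ s).card = 2 := by rw [Finset.card_sdiff_of_subset h]; omega
  obtain ⟨x, y, hxy, he⟩ := Finset.card_eq_two.1 h2
  have hx : x ∈ T ∧ x ∉ s := Finset.mem_sdiff.1 (he ▸ by simp)
  have hy : y ∈ T ∧ y ∉ s := Finset.mem_sdiff.1 (he ▸ by simp)
  refine ⟨insert x s, insert y s, fun hh => ?_, fun t => ⟨fun ⟨h1, h3, h4⟩ => ?_, ?_⟩⟩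
  · have : x ∈ insert y s := hh ▸ Finset.mem_insert_self x s
    rcases Finset.mem_insert.1 this with h' | h'
    · exact hxy h'
    · exact hx.2 h'
  · obtain ⟨z, hz, rfl⟩ := (Finset.exists_eq_insert_iff.2 ⟨h1, h4.symm⟩)
    have : z ∈ T \ s := Finset.mem_sdiff.2 ⟨h3 (Finset.mem_insert_self _ _), hz⟩
    rw [he] at this
    rcases Finset.mem_insert.1 this with h' | h'
    · exact Or.inl (h' ▸ rfl)
    · exact Or.inr (Finset.mem_singleton.1 h' ▸ rfl)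
  · rintro (rfl | rfl)
    · exact ⟨Finset.subset_insert _ _, Finset.insert_subset hx.1 h,
        Finset.card_insert_of_notMem hx.2⟩
    · exact ⟨Finset.subset_insert _ _, Finset.insert_subset hy.1 h,
        Finset.card_insert_of_notMem hy.2⟩

/-- the edges of a triangle -/
theorem tri_edges {x y z : V} (hxy : x ≠ y) (hxz : x ≠ z) (hyz : y ≠ z) (e : Finset V) :
    (e ⊆ {x, y, z} ∧ e.card = 2) ↔ e = {x, y} ∨ e = {x, z} ∨ e = {y, z} := by
  constructor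
  · rintro ⟨h1, h2⟩
    obtain ⟨a, b, hab, rfl⟩ := Finset.card_eq_two.1 h2
    have ha := h1 (Finset.mem_insert_self _ _)
    have hb := h1 (Finset.mem_insert_of_mem (Finset.mem_singleton_self b))
    simp only [Finset.mem_insert, Finset.mem_singleton] at ha hb
    rcases ha with rfl | rfl | rfl <;> rcases hb with rfl | rfl | rfl <;>
      first | exact absurd rfl hab | simp [Finset.pair_comm]
  · rintro (rfl | rfl | rfl)
    · exact ⟨by intro a; simp; tauto, Finset.card_pair hxy⟩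
    · exact ⟨by intro a; simp; tauto, Finset.card_pair hxz⟩
    · exact ⟨by intro a; simp; tauto, Finset.card_pair hyz⟩

theorem pair_ne {x y z : V} (hxz : x ≠ z) (hyz : y ≠ z) : ({x, y} : Finset V) ≠ {x, z} := by
  intro h
  have : z ∈ ({x, y} : Finset V) := h ▸ by simp
  simp only [Finset.mem_insert, Finset.mem_singleton] at this
  rcases this with h | h
  · exact hxz h.symm
  · exact hyz h.symm

theorem ncard_two {α : Type*} {P : α → Prop} (h : {x | P x}.ncard = 2) :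
    ∃ x y, x ≠ y ∧ ∀ j, P j ↔ j = x ∨ j = y := by
  obtain ⟨x, y, hxy, he⟩ := Set.ncard_eq_two.1 h
  exact ⟨x, y, hxy, fun j => by simpa using Set.ext_iff.1 he j⟩

theorem ncard_one {α : Type*} {P : α → Prop} (h : {x | P x}.ncard = 1) :
    ∃ x, ∀ j, P j ↔ j = x := by
  obtain ⟨x, he⟩ := Set.ncard_eq_one.1 h
  exact ⟨x, fun j => by simpa using Set.ext_iff.1 he j⟩

end

end Crest.Agent.X212.Lt44
end

-- ▼ part X212/Lt44/Rel
section

/-!
# Combinatorial loop theorem, TOP: relative two-cycles bound (helper44)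
-/

set_option autoImplicit false

namespace Crest.Agent.X212.Lt44

open Crest.Agent.X212.Dsc37

variable {G : Type} {X : Dat G}

/-- simplices of `X` with `n` vertices -/
def Sx (X : Dat G) (n : ℕ) (σ : Finset X.V) : Prop := σ ∈ X.K ∧ σ.card = n

theorem Mt.mono {V : Type*} {A : Set V} {σ ρ : Finset V} (h : Mt A σ) (hs : σ ⊆ ρ) : Mt A ρ := by
  obtain ⟨a, ha, hA⟩ := h
  exact ⟨a, hs ha, hA⟩

theorem eq_of_card {V : Type*} {σ ρ : Finset V} (h : σ ⊆ ρ) (hc : ρ.card ≤ σ.card) : σ = ρ :=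
  Finset.eq_of_subset_of_card_le h hc

variable [AddGroup G]

theorem two_tet (hO : X.OK) {t : Finset X.V} (ht : Sx X 3 t) (hm : Mt X.A t) (hF : t ∉ X.F) :
    ∃ x y, x ≠ y ∧ ∀ T, (Sx X 4 T ∧ t ⊆ T) ↔ T = x ∨ T = y := by
  obtain ⟨x, y, hxy, h⟩ := ncard_two (hO.triI t ht.1 ht.2 hm hF)
  exact ⟨x, y, hxy, fun T => by rw [← h, Sx, and_assoc]⟩

theorem one_tet (hO : X.OK) {t : Finset X.V} (ht : Sx X 3 t) (hm : Mt X.A t) (hF : t ∈ X.F) :
    ∃ x, ∀ T, (Sx X 4 T ∧ t ⊆ T) ↔ T = x := by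
  obtain ⟨x, h⟩ := ncard_one (hO.triB t hF ht.2 hm)
  exact ⟨x, fun T => by rw [← h, Sx, and_assoc]⟩

theorem two_tri (hO : X.OK) {e : Finset X.V} (he : e.card = 2) (hm : Mt X.A e) (hF : e ∈ X.F) :
    ∃ x y, x ≠ y ∧ ∀ t, (Sx X 3 t ∧ t ∈ X.F ∧ e ⊆ t) ↔ t = x ∨ t = y := by
  obtain ⟨x, y, hxy, h⟩ := ncard_two (hO.edgB e hF he hm)
  refine ⟨x, y, hxy, fun t => ?_⟩
  rw [← h, Sx]
  exact ⟨fun hh => ⟨hh.2.1, hh.1.2, hh.2.2⟩, fun hh => ⟨⟨hO.FK hh.1, hh.2.1⟩, hh.1, hh.2.2⟩⟩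

/-- the two simplices between -/
theorem btw (hO : X.OK) {n : ℕ} {s T : Finset X.V} (hT : Sx X (n + 2) T) (hs : s.card = n)
    (h : s ⊆ T) : ∃ x y, x ≠ y ∧ ∀ t, (Sx X (n + 1) t ∧ s ⊆ t ∧ t ⊆ T) ↔ t = x ∨ t = y := by
  obtain ⟨x, y, hxy, hh⟩ := between h (by rw [hT.2, hs])
  refine ⟨x, y, hxy, fun t => ?_⟩
  rw [← hh, Sx, hs]
  exact ⟨fun h' => ⟨h'.2.1, h'.2.2, h'.1.2⟩, fun h' =>
    ⟨⟨hO.cxK.down T hT.1 t h'.2.1 (Finset.card_pos.1 (by omega)), h'.2.2⟩, h'.1, h'.2.1⟩⟩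

/-- a function on tetrahedra which does not jump is constant round a good simplex -/
theorem const_tet (hO : X.OK) (hL : X.Loc) {ρ : Finset X.V} (hρ : ρ ∈ X.K) (hm : Mt X.A ρ)
    (hc : 2 ≤ ρ.card) {u : Finset X.V → ZMod 2}
    (hu : ∀ t, Sx X 3 t → t ∉ X.F → ρ ⊆ t → ∀ T1 T2, Sx X 4 T1 → Sx X 4 T2 → t ⊆ T1 → t ⊆ T2 →
      T1 ≠ T2 → u T1 = u T2)
    {T1 T2 : Finset X.V} (h1 : Sx X 4 T1) (h2 : Sx X 4 T2) (s1 : ρ ⊆ T1) (s2 : ρ ⊆ T2) :
    u T1 = u T2 := by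
  have big : ∀ σ ∈ X.K, ρ ⊆ σ → 3 ≤ σ.card → ∀ T1 T2, Sx X 4 T1 → Sx X 4 T2 → σ ⊆ T1 → σ ⊆ T2 →
      u T1 = u T2 := by
    intro σ hσ hs h3 T1 T2 h1 h2 s1 s2
    by_cases h4 : σ.card = 3
    · by_cases hne : T1 = T2
      · rw [hne]
      by_cases hF : σ ∈ X.F
      · obtain ⟨x, hx⟩ := one_tet hO ⟨hσ, h4⟩ (Mt.mono hm hs) hF
        exact absurd (((hx T1).1 ⟨h1, s1⟩).trans ((hx T2).1 ⟨h2, s2⟩).symm) hne
      · exact hu σ ⟨hσ, h4⟩ hF hs T1 T2 h1 h2 s1 s2 hne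
    · rw [← eq_of_card s1 (by rw [h1.2]; omega), ← eq_of_card s2 (by rw [h2.2]; omega)]
  by_cases h3 : 3 ≤ ρ.card
  · exact big ρ hρ subset_rfl h3 T1 T2 h1 h2 s1 s2
  have he : ρ.card = 2 := by omega
  have ne4 : ∀ T, Sx X 4 T → T ≠ ρ := fun T hT h => by have := hT.2; rw [h] at this; omega
  have key := (hL.edge ρ hρ he hm).2 (fun σ => ∃ T, Sx X 4 T ∧ σ ⊆ T ∧ u T = u T1) ?_
    T1 ⟨h1.1, s1, ne4 T1 h1⟩ T2 ⟨h2.1, s2, ne4 T2 h2⟩
  · obtain ⟨T, hT, hs, hu⟩ := key.1 ⟨T1, h1, subset_rfl, rfl⟩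
    rw [← hu, eq_of_card hs (by rw [hT.2, h2.2])]
  · rintro σ ⟨hσ, hs, hne⟩ σ' ⟨hσ', hs', -⟩ hss
    have h3' : 3 ≤ σ.card := by
      have := Finset.card_lt_card (Finset.ssubset_iff_subset_ne.2 ⟨hs, hne.symm⟩)
      omega
    constructor
    · rintro ⟨T, hT, hsT, huT⟩
      obtain ⟨T', hT', hc', hs''⟩ := hL.pure σ' hσ' (Mt.mono hm hs')
      exact ⟨T', ⟨hT', hc'⟩, hs'',
        (big σ hσ hs h3' T' T ⟨hT', hc'⟩ hT (hss.trans hs'') hsT).trans huT⟩
    · rintro ⟨T, hT, hsT, huT⟩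
      exact ⟨T, hT, hss.trans hsT, huT⟩

/-- `Y` colours the tetrahedra round `σ` with jumps `β` -/
def Col (X : Dat G) (β : Finset X.V → ZMod 2) (σ : Finset X.V) (Y : Finset X.V → ZMod 2) : Prop :=
  ∀ t, Sx X 3 t → t ∉ X.F → σ ⊆ t → ∀ T1 T2, Sx X 4 T1 → Sx X 4 T2 → t ⊆ T1 → t ⊆ T2 →
    T1 ≠ T2 → Y T1 + Y T2 = β t

theorem Col.uniq (hO : X.OK) (hL : X.Loc) {β Y Y' : Finset X.V → ZMod 2} {σ σ' ρ : Finset X.V}
    (h : Col X β σ Y) (h' : Col X β σ' Y') (hρ : ρ ∈ X.K) (hm : Mt X.A ρ) (hc : 2 ≤ ρ.card)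
    (hs : σ ⊆ ρ) (hs' : σ' ⊆ ρ) {T1 T2 : Finset X.V} (h1 : Sx X 4 T1) (h2 : Sx X 4 T2)
    (s1 : ρ ⊆ T1) (s2 : ρ ⊆ T2) : Y T1 + Y' T1 = Y T2 + Y' T2 := by
  refine const_tet hO hL hρ hm hc (u := fun T => Y T + Y' T) ?_ h1 h2 s1 s2
  intro t ht hF hst U1 U2 k1 k2 r1 r2 hne
  have e1 := h t ht hF (hs.trans hst) U1 U2 k1 k2 r1 r2 hne
  have e2 := h' t ht hF (hs'.trans hst) U1 U2 k1 k2 r1 r2 hne
  rw [← e1] at e2
  generalize Y U1 = a, Y U2 = b, Y' U1 = c, Y' U2 = d at e2 ⊢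
  revert a b c d; decide

theorem col_edge (hO : X.OK) (hL : X.Loc) {β : Finset X.V → ZMod 2} {e : Finset X.V}
    (he : Sx X 2 e) (hm : Mt X.A e) (hβ : e ∉ X.F → sm (fun t => Sx X 3 t ∧ e ⊆ t) β = 0) :
    ∃ Y, Col X β e Y := by
  classical
  obtain ⟨Y, hY⟩ := d0 (fun T => Sx X 4 T ∧ e ⊆ T) (fun t => Sx X 3 t ∧ t ∉ X.F ∧ e ⊆ t)
    (fun T t => t ⊆ T) β (fun a ha => by
      let a' : Finset X.V → ZMod 2 := fun t => if t ∈ X.F then 0 else a t
      have loc : ∀ T, Sx X 4 T → ∀ t t', Sx X 3 t → Sx X 3 t' → e ⊆ t → e ⊆ t' → t ⊆ T → t' ⊆ T →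
          a' t = a' t' := by
        intro T hT t t' ht ht' s s' r r'
        obtain ⟨x, y, hxy, hb⟩ := btw hO (n := 2) hT he.2 (s.trans r)
        have h0 : sm (fun t => Sx X 3 t ∧ e ⊆ t ∧ t ⊆ T) a' = 0 := by
          rw [sm_drop (Q := fun t => t ∉ X.F) (fun j _ hj => by simp [a', not_not.1 hj]),
            ← ha T ⟨hT, s.trans r⟩]
          exact sm_congr (fun j => by tauto) fun j hj => by simp [a', hj.1.2.1]
        rw [sm_two hxy hb, z2e] at h0
        rcases (hb t).1 ⟨ht, s, r⟩ with rfl | rfl <;> rcases (hb t').1 ⟨ht', s', r'⟩ with h | h <;>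
          simp [h, h0]
      have ne3 : ∀ t, Sx X 3 t → t ≠ e := fun t ht h => by
        have h1 := ht.2; have h2 := he.2; rw [h] at h1; omega
      have glob : ∀ t t', Sx X 3 t → Sx X 3 t' → e ⊆ t → e ⊆ t' → a' t = a' t' := by
        intro t t' ht ht' s s'
        have key := (hL.edge e he.1 he.2 hm).2
          (fun σ => ∃ u, Sx X 3 u ∧ e ⊆ u ∧ u ⊆ σ ∧ a' u = a' t) ?_
          t ⟨ht.1, s, ne3 t ht⟩ t' ⟨ht'.1, s', ne3 t' ht'⟩
        · obtain ⟨u, hu, -, hs, h⟩ := key.1 ⟨t, ht, s, subset_rfl, rfl⟩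
          rw [← h, eq_of_card hs (by rw [hu.2, ht'.2])]
        · rintro σ ⟨hσ, hs, hne⟩ σ' ⟨hσ', hs', -⟩ hss
          constructor
          · rintro ⟨u, hu, k1, k2, k3⟩
            exact ⟨u, hu, k1, k2.trans hss, k3⟩
          · rintro ⟨u, hu, k1, k2, k3⟩
            by_cases hq : σ'.card ≤ σ.card
            · exact ⟨u, hu, k1, (eq_of_card hss hq).symm ▸ k2, k3⟩
            have h3' := Finset.card_lt_card (Finset.ssubset_iff_subset_ne.2 ⟨hs, hne.symm⟩)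
            have h4 := hO.dimK σ' hσ'
            have h2 := he.2
            exact ⟨σ, ⟨hσ, by omega⟩, hs, subset_rfl,
              (loc σ' ⟨hσ', by omega⟩ σ u ⟨hσ, by omega⟩ hu hs k1 hss k2).trans k3⟩
      by_cases h1 : ∃ t, Sx X 3 t ∧ e ⊆ t ∧ a' t = 1
      · obtain ⟨t0, ht0, s0, h0⟩ := h1
        have nF : ∀ t, Sx X 3 t → e ⊆ t → t ∉ X.F := fun t ht s hF => by
          have := glob t t0 ht ht0 s s0
          rw [h0] at this
          simp [a', hF] at this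
        have eF : e ∉ X.F := fun hF => by
          obtain ⟨x, y, -, hx⟩ := two_tri hO he.2 hm hF
          obtain ⟨k1, k2, k3⟩ := (hx x).2 (Or.inl rfl)
          exact nF x k1 k3 k2
        rw [← hβ eF]
        refine sm_congr (fun j => ⟨fun h => ⟨h.1, h.2.2⟩, fun h => ⟨h.1, nF j h.1 h.2, h.2⟩⟩)
          fun j hj => ?_
        have := glob j t0 hj.1 ht0 hj.2 s0
        rw [h0] at this
        simp only [a', nF j hj.1 hj.2, if_false] at this
        rw [this, mul_one]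
      · refine sm_zero fun j hj => ?_
        rcases z2c (a j) with h | h
        · rw [h, mul_zero]
        · exact absurd ⟨j, hj.1, hj.2.2, by simp [a', hj.2.1, h]⟩ h1)
  refine ⟨Y, fun t ht hF s T1 T2 h1 h2 s1 s2 hne => ?_⟩
  obtain ⟨x, y, hxy, hb⟩ := two_tet hO ht (Mt.mono hm s) hF
  rw [hY t ⟨ht, hF, s⟩, sm_two hne]
  intro T
  constructor
  · rintro ⟨⟨k1, -⟩, k2⟩
    have a1 := (hb T1).1 ⟨h1, s1⟩
    have a2 := (hb T2).1 ⟨h2, s2⟩
    have a3 := (hb T).1 ⟨k1, k2⟩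
    rcases a1 with rfl | rfl <;> rcases a2 with rfl | rfl <;> tauto
  · rintro (rfl | rfl)
    · exact ⟨⟨h1, s.trans s1⟩, s1⟩
    · exact ⟨⟨h2, s.trans s2⟩, s2⟩

theorem col_big (hO : X.OK) (hL : X.Loc) {β : Finset X.V → ZMod 2}
    (hβ : ∀ e, Sx X 2 e → Mt X.A e → e ∉ X.F → sm (fun t => Sx X 3 t ∧ e ⊆ t) β = 0)
    {σ : Finset X.V} (hσ : σ ∈ X.K) (hm : Mt X.A σ) (hc : 2 ≤ σ.card) : ∃ Y, Col X β σ Y := by
  classical
  by_cases h2 : σ.card = 2
  · exact col_edge hO hL ⟨hσ, h2⟩ hm (hβ σ ⟨hσ, h2⟩ hm)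
  obtain ⟨T0, hT0, c0, s0⟩ := hL.pure σ hσ hm
  refine ⟨fun T => if T = T0 then 0 else β σ, fun t ht hF s T1 T2 h1 h3 s1 s2 hne => ?_⟩
  have e : σ = t := eq_of_card s (by rw [ht.2]; omega)
  subst e
  obtain ⟨x, y, hxy, hb⟩ := two_tet hO ht hm hF
  have a1 := (hb T1).1 ⟨h1, s1⟩
  have a2 := (hb T2).1 ⟨h3, s2⟩
  have a3 := (hb T0).1 ⟨⟨hT0, c0⟩, s0⟩
  rcases a1 with rfl | rfl <;> rcases a2 with rfl | rfl <;> rcases a3 with rfl | rfl <;>
    first | exact absurd rfl hne | simp [hne, hne.symm]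

theorem col_vert (hO : X.OK) (hL : X.Loc) {β : Finset X.V → ZMod 2}
    (hβ : ∀ e, Sx X 2 e → Mt X.A e → e ∉ X.F → sm (fun t => Sx X 3 t ∧ e ⊆ t) β = 0)
    {a : X.V} (ha : a ∈ X.A) : ∃ Y, Col X β {a} Y := by
  classical
  have h1 : ∀ σ : Finset X.V, ∃ Y, σ ∈ X.K → Mt X.A σ → 2 ≤ σ.card → Col X β σ Y := fun σ => by
    by_cases h : σ ∈ X.K ∧ Mt X.A σ ∧ 2 ≤ σ.card
    · obtain ⟨Y, hY⟩ := col_big hO hL hβ h.1 h.2.1 h.2.2
      exact ⟨Y, fun _ _ _ => hY⟩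
    · exact ⟨0, fun k1 k2 k3 => absurd ⟨k1, k2, k3⟩ h⟩
  choose Y hY using h1
  have h2 : ∀ σ : Finset X.V, ∃ T, σ ∈ X.K → Mt X.A σ → Sx X 4 T ∧ σ ⊆ T := fun σ => by
    by_cases h : σ ∈ X.K ∧ Mt X.A σ
    · obtain ⟨T, k1, k2, k3⟩ := hL.pure σ h.1 h.2
      exact ⟨T, fun _ _ => ⟨⟨k1, k2⟩, k3⟩⟩
    · exact ⟨σ, fun k1 k2 => absurd ⟨k1, k2⟩ h⟩
  choose tt htt using h2
  have inW : ∀ σ, σ ∈ {σ | σ ∈ X.K ∧ a ∈ σ ∧ σ ≠ {a}} → σ ∈ X.K ∧ Mt X.A σ ∧ 2 ≤ σ.card := by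
    rintro σ ⟨k1, k2, k3⟩
    refine ⟨k1, ⟨a, k2, ha⟩, ?_⟩
    have := Finset.card_lt_card (Finset.ssubset_iff_subset_ne.2
      ⟨Finset.singleton_subset_iff.2 k2, k3.symm⟩)
    rw [Finset.card_singleton] at this
    omega
  have mv : ∀ σ ∈ {σ | σ ∈ X.K ∧ a ∈ σ ∧ σ ≠ {a}}, ∀ ρ ∈ {σ | σ ∈ X.K ∧ a ∈ σ ∧ σ ≠ {a}},
      σ ⊆ ρ → ∀ T, Sx X 4 T → ρ ⊆ T → Y σ (tt ρ) + Y ρ (tt ρ) = Y σ T + Y ρ T := by
    intro σ hσ ρ hρ s T hT sT
    obtain ⟨k1, k2, k3⟩ := inW σ hσ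
    obtain ⟨j1, j2, j3⟩ := inW ρ hρ
    exact Col.uniq hO hL (hY σ k1 k2 k3) (hY ρ j1 j2 j3) j1 j2 j3 s subset_rfl (htt ρ j1 j2).1 hT
      (htt ρ j1 j2).2 sT
  obtain ⟨l, hl⟩ := hL.vert a ha (fun σ ρ => Y σ (tt ρ) + Y ρ (tt ρ)) (by
    intro x hx y hy z hz s1 s2
    obtain ⟨j1, j2, -⟩ := inW z hz
    have := mv x hx y hy s1 (tt z) (htt z j1 j2).1 (s2.trans (htt z j1 j2).2)
    simp only [this]
    generalize Y x (tt z) = p, Y y (tt z) = q, Y z (tt z) = r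
    revert p q r; decide)
  refine ⟨fun T => l T + Y T T, fun t ht hF s T1 T2 h1 h2 s1 s2 hne => ?_⟩
  have hat : a ∈ t := Finset.singleton_subset_iff.1 s
  have mem : ∀ σ ∈ X.K, t ⊆ σ → σ ∈ {σ | σ ∈ X.K ∧ a ∈ σ ∧ σ ≠ {a}} := fun σ k1 k2 =>
    ⟨k1, k2 hat, fun h => by
      have := Finset.card_le_card k2
      rw [h, ht.2] at this
      simp at this⟩
  have e1 := hl t (mem t ht.1 subset_rfl) T1 (mem T1 h1.1 s1) s1
  have e2 := hl t (mem t ht.1 subset_rfl) T2 (mem T2 h2.1 s2) s2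
  simp only [mv t (mem t ht.1 subset_rfl) T1 (mem T1 h1.1 s1) s1 T1 h1 subset_rfl] at e1
  simp only [mv t (mem t ht.1 subset_rfl) T2 (mem T2 h2.1 s2) s2 T2 h2 subset_rfl] at e2
  have e3 := hY t ht.1 ⟨a, hat, ha⟩ (by rw [ht.2]; omega) t ht hF subset_rfl T1 T2 h1 h2 s1 s2 hne
  simp only [e1, e2, ← e3]
  generalize l t = p, Y t T1 = q, Y t T2 = r, Y T1 T1 = u, Y T2 T2 = v
  revert p q r u v; decide

/-- **(Q)** a set of good triangles, even at the interior good edges, is the frontier of a set of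
tetrahedra -/
theorem rel_bound (hO : X.OK) (hL : X.Loc) (hH : H1On X.K X.A) {β : Finset X.V → ZMod 2}
    (hβ : ∀ e, Sx X 2 e → Mt X.A e → e ∉ X.F → sm (fun t => Sx X 3 t ∧ e ⊆ t) β = 0) :
    ∃ y : Finset X.V → ZMod 2, ∀ t, Sx X 3 t → Mt X.A t → t ∉ X.F →
      β t = sm (fun T => Sx X 4 T ∧ t ⊆ T) y := by
  classical
  have h1 : ∀ a : X.V, ∃ Y, a ∈ X.A → Col X β {a} Y := fun a => by
    by_cases h : a ∈ X.A
    · obtain ⟨Y, hY⟩ := col_vert hO hL hβ h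
      exact ⟨Y, fun _ => hY⟩
    · exact ⟨0, fun k => absurd k h⟩
  choose Y hY using h1
  have h2 : ∀ σ : Finset X.V, ∃ T, σ ∈ X.K → Mt X.A σ → Sx X 4 T ∧ σ ⊆ T := fun σ => by
    by_cases h : σ ∈ X.K ∧ Mt X.A σ
    · obtain ⟨T, k1, k2, k3⟩ := hL.pure σ h.1 h.2
      exact ⟨T, fun _ _ => ⟨⟨k1, k2⟩, k3⟩⟩
    · exact ⟨σ, fun k1 k2 => absurd ⟨k1, k2⟩ h⟩
  choose tt htt using h2
  have mv : ∀ T, Sx X 4 T → ∀ x ∈ T, ∀ y ∈ T, x ∈ X.A → y ∈ X.A →
      Y x (tt {x, y}) + Y y (tt {x, y}) = Y x T + Y y T := by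
    intro T hT x hx y hy ax ay
    by_cases hxy : x = y
    · subst hxy; rw [z2, z2]
    have s : ({x, y} : Finset X.V) ⊆ T := by
      intro z hz
      rcases Finset.mem_insert.1 hz with rfl | hz
      · exact hx
      · exact Finset.mem_singleton.1 hz ▸ hy
    have k1 := hO.cxK.down T hT.1 _ s (by simp)
    have k2 : Mt X.A {x, y} := ⟨x, by simp, ax⟩
    exact Col.uniq hO hL (hY x ax) (hY y ay) k1 k2 (by rw [Finset.card_pair hxy]) (by simp)
      (by simp) (htt _ k1 k2).1 hT (htt _ k1 k2).2 s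
  obtain ⟨l, hl⟩ := hH (fun x y => Y x (tt {x, y}) + Y y (tt {x, y})) (by
    intro σ hσ x hx y hy z hz ax ay az
    obtain ⟨hT, s⟩ := htt σ hσ ⟨x, hx, ax⟩
    simp only [mv _ hT x (s hx) z (s hz) ax az, mv _ hT x (s hx) y (s hy) ax ay,
      mv _ hT y (s hy) z (s hz) ay az]
    generalize Y x (tt σ) = p, Y y (tt σ) = q, Y z (tt σ) = r
    revert p q r; decide)
  refine ⟨fun T => if h : Mt X.A T then Y h.choose T + l h.choose else 0, fun t ht hm hF => ?_⟩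
  obtain ⟨a, hat, ha⟩ := hm
  have val : ∀ T, Sx X 4 T → t ⊆ T →
      (if h : Mt X.A T then Y h.choose T + l h.choose else 0) = Y a T + l a := by
    intro T hT s
    have h : Mt X.A T := ⟨a, s hat, ha⟩
    rw [dif_pos h]
    obtain ⟨k1, k2⟩ := h.choose_spec
    have := hl T hT.1 _ k1 a (s hat) k2 ha
    simp only [mv T hT _ k1 a (s hat) k2 ha] at this
    generalize Y h.choose T = p, Y a T = q, l h.choose = r, l a = u at this ⊢
    revert p q r u; decide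
  obtain ⟨x, y, hxy, hb⟩ := two_tet hO ht ⟨a, hat, ha⟩ hF
  obtain ⟨k1, k2⟩ := (hb x).2 (Or.inl rfl)
  obtain ⟨j1, j2⟩ := (hb y).2 (Or.inr rfl)
  rw [sm_two hxy hb, val x k1 k2, val y j1 j2,
    ← hY a ha t ht hF (Finset.singleton_subset_iff.2 hat) x y k1 j1 k2 j2 hxy]
  generalize Y a x = p, Y a y = q, l a = r
  revert p q r; decide

end Crest.Agent.X212.Lt44
end

-- ▼ part X212/Lt44/Cyc

/-!
# Combinatorial loop theorem, TOP: cycles of the boundary surface bound (helper44)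
-/

set_option autoImplicit false

namespace Crest.Agent.X212.Lt44

open Crest.Agent.X212.Dsc37

variable {G : Type} {X : Dat G}

/-- all vertices are good -/
def In (X : Dat G) (σ : Finset X.V) : Prop := ∀ x ∈ σ, x ∈ X.A
/-- mixed simplex -/
def Mix (X : Dat G) (σ : Finset X.V) : Prop := Mt X.A σ ∧ ¬ In X σ

theorem Mix.mono {σ ρ : Finset X.V} (h : Mix X σ) (hs : σ ⊆ ρ) : Mix X ρ :=
  ⟨Mt.mono h.1 hs, fun hh => h.2 fun x hx => hh x (hs hx)⟩

theorem Mix.ex {σ : Finset X.V} (h : Mix X σ) : ∃ a ∈ σ, ∃ x ∈ σ, a ∈ X.A ∧ x ∉ X.A := by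
  obtain ⟨⟨a, ha, hA⟩, h2⟩ := h
  simp only [In, not_forall] at h2
  obtain ⟨x, hx, hx'⟩ := h2
  exact ⟨a, ha, x, hx, hA, hx'⟩

theorem mix_pair {a x : X.V} (ha : a ∈ X.A) (hx : x ∉ X.A) : Mix X {a, x} :=
  ⟨⟨a, by simp, ha⟩, fun h => hx (h x (by simp))⟩

theorem pair_sub {V : Type*} [DecidableEq V] {x y : V} {σ : Finset V} (hx : x ∈ σ) (hy : y ∈ σ) :
    ({x, y} : Finset V) ⊆ σ := Finset.insert_subset hx (Finset.singleton_subset_iff.2 hy)

theorem tri_sub {V : Type*} [DecidableEq V] {x y z : V} {σ : Finset V} (hx : x ∈ σ) (hy : y ∈ σ)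
    (hz : z ∈ σ) : ({x, y, z} : Finset V) ⊆ σ := Finset.insert_subset hx (pair_sub hy hz)

theorem card_tri {V : Type*} [DecidableEq V] {x y z : V} (hxy : x ≠ y) (hxz : x ≠ z)
    (hyz : y ≠ z) : ({x, y, z} : Finset V).card = 3 :=
  Finset.card_eq_three.2 ⟨x, y, z, hxy, hxz, hyz, rfl⟩

/-- a mixed edge is `{a, x}` -/
theorem mix_edge {e : Finset X.V} (hc : e.card = 2) (h : Mix X e) :
    ∃ a x, a ∈ X.A ∧ x ∉ X.A ∧ e = {a, x} := by
  obtain ⟨a, ha, x, hx, hA, hx'⟩ := h.ex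
  exact ⟨a, x, hA, hx', (eq_of_card (pair_sub ha hx)
    (by rw [hc, Finset.card_pair (fun h : a = x => hx' (h ▸ hA))])).symm⟩

/-- a function on the mixed edges of `σ`, equal on edges of a triangle, is constant -/
theorem mix_const {α : Type*} {σ : Finset X.V} {ψ : Finset X.V → α}
    (h : ∀ t, t ⊆ σ → t.card = 3 → ∀ e e', e ⊆ t → e' ⊆ t → e.card = 2 → e'.card = 2 → Mix X e →
      Mix X e' → ψ e = ψ e') {e e' : Finset X.V} (s : e ⊆ σ) (s' : e' ⊆ σ) (c : e.card = 2)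
    (c' : e'.card = 2) (m : Mix X e) (m' : Mix X e') : ψ e = ψ e' := by
  obtain ⟨a, x, ha, hx, rfl⟩ := mix_edge c m
  obtain ⟨b, y, hb, hy, rfl⟩ := mix_edge c' m'
  have ne : ∀ {p q : X.V}, p ∈ X.A → q ∉ X.A → p ≠ q := fun hp hq h => hq (h ▸ hp)
  have e1 : ψ {a, x} = ψ {a, y} := by
    by_cases hxy : x = y
    · rw [hxy]
    exact h {a, x, y} (tri_sub (s (by simp)) (s (by simp)) (s' (by simp)))
      (card_tri (ne ha hx) (ne ha hy) hxy) _ _ (pair_sub (by simp) (by simp))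
      (pair_sub (by simp) (by simp)) c (Finset.card_pair (ne ha hy)) m (mix_pair ha hy)
  have e2 : ψ {a, y} = ψ {b, y} := by
    by_cases hab : a = b
    · rw [hab]
    exact h {a, b, y} (tri_sub (s (by simp)) (s' (by simp)) (s' (by simp)))
      (card_tri hab (ne ha hy) (ne hb hy)) _ _ (pair_sub (by simp) (by simp))
      (pair_sub (by simp) (by simp)) (Finset.card_pair (ne ha hy)) c' (mix_pair ha hy) m'
  exact e1.trans e2

variable [AddGroup G]

theorem sx_tri (hO : X.OK) {x y z : X.V} (hxy : x ≠ y) (hxz : x ≠ z) (hyz : y ≠ z)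
    (h : ({x, y, z} : Finset X.V) ∈ X.K) (e : Finset X.V) :
    (Sx X 2 e ∧ e ⊆ {x, y, z}) ↔ e = {x, y} ∨ e = {x, z} ∨ e = {y, z} := by
  rw [← tri_edges hxy hxz hyz]
  exact ⟨fun hh => ⟨hh.2, hh.1.2⟩, fun hh =>
    ⟨⟨hO.cxK.down _ h e hh.1 (Finset.card_pos.1 (by omega)), hh.2⟩, hh.1⟩⟩

/-- a mixed triangle has two mixed edges -/
theorem two_mix (hO : X.OK) {t : Finset X.V} (ht : Sx X 3 t) (hm : Mix X t) :
    ∃ x y, x ≠ y ∧ ∀ e, ((Sx X 2 e ∧ Mix X e) ∧ e ⊆ t) ↔ e = x ∨ e = y := by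
  obtain ⟨a, ha, x, hx, hA, hx'⟩ := hm.ex
  have hax : a ≠ x := fun h => hx' (h ▸ hA)
  obtain ⟨z, hz, hzz⟩ := Finset.exists_mem_notMem_of_card_lt_card (s := {a, x}) (t := t)
    (by rw [ht.2, Finset.card_pair hax]; omega)
  simp only [Finset.mem_insert, Finset.mem_singleton, not_or] at hzz
  have haz : a ≠ z := fun h => hzz.1 h.symm
  have hxz : x ≠ z := fun h => hzz.2 h.symm
  have e : ({a, x, z} : Finset X.V) = t :=
    eq_of_card (tri_sub ha hx hz) (by rw [ht.2, card_tri hax haz hxz])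
  subst e
  have hs := sx_tri hO hax haz hxz ht.1
  by_cases hzA : z ∈ X.A
  · refine ⟨{a, x}, {x, z}, ?_, fun e => ⟨fun h => ?_, ?_⟩⟩
    · rw [Finset.pair_comm a x]; exact pair_ne hxz haz
    · rcases (hs e).1 ⟨h.1.1, h.2⟩ with k | k | k
      · exact Or.inl k
      · exact absurd (by rw [k]; intro y hy; simp at hy; rcases hy with rfl | rfl <;> assumption)
          h.1.2.2
      · exact Or.inr k
    · rintro (rfl | rfl)
      · have := (hs _).2 (Or.inl rfl)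
        exact ⟨⟨this.1, mix_pair hA hx'⟩, this.2⟩
      · have := (hs _).2 (Or.inr (Or.inr rfl))
        exact ⟨⟨this.1, Finset.pair_comm z x ▸ mix_pair hzA hx'⟩, this.2⟩
  · refine ⟨{a, x}, {a, z}, pair_ne haz hxz, fun e => ⟨fun h => ?_, ?_⟩⟩
    · rcases (hs e).1 ⟨h.1.1, h.2⟩ with k | k | k
      · exact Or.inl k
      · exact Or.inr k
      · obtain ⟨y, hy, hyA⟩ := h.1.2.1
        rw [k] at hy
        simp at hy
        rcases hy with rfl | rfl <;> contradiction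
    · rintro (rfl | rfl)
      · have := (hs _).2 (Or.inl rfl)
        exact ⟨⟨this.1, mix_pair hA hx'⟩, this.2⟩
      · have := (hs _).2 (Or.inr (Or.inl rfl))
        exact ⟨⟨this.1, mix_pair hA hzA⟩, this.2⟩

/-- **(P)** edge cycles inside `A` bound inside `A` -/
theorem abs_bound (hO : X.OK) (hH : H1On X.K X.A) {z : Finset X.V → ZMod 2}
    (hz : ∀ a ∈ X.A, sm (fun f => (Sx X 2 f ∧ In X f) ∧ a ∈ f) z = 0) :
    ∃ b : Finset X.V → ZMod 2, ∀ f, Sx X 2 f ∧ In X f →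
      z f = sm (fun t => (Sx X 3 t ∧ In X t) ∧ f ⊆ t) b := by
  classical
  refine d0 (fun t => Sx X 3 t ∧ In X t) (fun f => Sx X 2 f ∧ In X f) (fun t f => f ⊆ t) z
    fun θ hθ => ?_
  obtain ⟨l, hl⟩ := hH (fun x y => if x = y then 0 else θ {x, y}) (by
    intro σ hσ x hx y hy w hw ax ay aw
    by_cases hxy : x = y
    · subst hxy; simp
    by_cases hyw : y = w
    · subst hyw; simp
    by_cases hxw : x = w
    · subst hxw; simp [hxy, hyw, Finset.pair_comm y x, z2]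
    have hK := hO.cxK.down σ hσ _ (tri_sub hx hy hw) (by simp)
    have hin : In X {x, y, w} := by
      intro u hu; simp at hu; rcases hu with rfl | rfl | rfl <;> assumption
    have h0 := hθ {x, y, w} ⟨⟨hK, card_tri hxy hxw hyw⟩, hin⟩
    rw [sm_three (x := {x, y}) (y := {x, w}) (z := {y, w}) (pair_ne hxw hyw)
      (by rw [Finset.pair_comm x y]; exact pair_ne hyw hxw)
      (by rw [Finset.pair_comm x w, Finset.pair_comm y w]
          exact pair_ne (Ne.symm hyw) hxy)] at h0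
    · simp only [hxy, hyw, hxw, if_false]
      generalize θ {x, y} = p, θ {x, w} = q, θ {y, w} = r at h0 ⊢
      revert p q r; decide
    · intro e
      rw [← sx_tri hO hxy hxw hyw hK]
      exact ⟨fun h => ⟨h.1.1, h.2⟩, fun h => ⟨⟨h.1, fun u hu => hin u (h.2 hu)⟩, h.2⟩⟩)
  have e1 : ∀ f, Sx X 2 f ∧ In X f → z f * θ f = sm (fun a => a ∈ f) (fun a => z f * l a) := by
    rintro f ⟨hf, hi⟩
    obtain ⟨x, y, hxy, rfl⟩ := Finset.card_eq_two.1 hf.2
    have := hl _ hf.1 x (by simp) y (by simp) (hi x (by simp)) (hi y (by simp))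
    simp only [hxy, if_false] at this
    rw [sm_two hxy (by simp), this, mul_add]
  rw [sm_congr (fun _ => Iff.rfl) e1, sm_comm _ (fun f a => a ∈ f) (fun a => a ∈ X.A)
    (fun f a => z f * l a) fun f a hf ha => hf.2 a ha]
  refine sm_zero fun a ha => ?_
  rw [← sm_mul, hz a ha, zero_mul]

/-- **(C)** one-cycles of the boundary surface bound in it -/
theorem cyc_bound (hO : X.OK) (hL : X.Loc) (hH : H1On X.K X.A) {am aw : Finset X.V → ZMod 2}
    (hF : ∀ e, e ∉ X.F → aw e = 0)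
    (h1 : ∀ e, Sx X 2 e → Mix X e → sm (fun t => (Sx X 3 t ∧ Mix X t) ∧ e ⊆ t) am + aw e = 0)
    (h2 : ∀ a ∈ X.A, sm (fun e => Sx X 2 e ∧ a ∈ e) aw = 0) :
    ∃ y yw : Finset X.V → ZMod 2,
      (∀ t, Sx X 3 t → Mix X t → am t = sm (fun T => Sx X 4 T ∧ t ⊆ T) y + yw t) ∧
      (∀ t, Sx X 3 t → Mt X.A t → t ∉ X.F → yw t = 0) ∧
      ∀ e, Sx X 2 e → Mt X.A e → aw e = sm (fun t => Sx X 3 t ∧ t ∈ X.F ∧ e ⊆ t) yw := by
  classical
  let z : Finset X.V → ZMod 2 := fun e => sm (fun t => (Sx X 3 t ∧ Mix X t) ∧ e ⊆ t) am + aw e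
  obtain ⟨b, hb⟩ := abs_bound hO hH (z := z) (fun a ha => by
    have e0 : sm (fun e => Sx X 2 e ∧ a ∈ e) z = 0 := by
      rw [sm_add, h2 a ha, add_zero, sm_comm _ (fun e t => (Sx X 3 t ∧ Mix X t) ∧ e ⊆ t)
        (fun t => (Sx X 3 t ∧ Mix X t) ∧ a ∈ t) (fun _ t => am t)
        fun e t he ht => ⟨ht.1, ht.2 he.2⟩]
      refine sm_zero fun t ht => sm_const_two ?_ _
      obtain ⟨x, y, hxy, h⟩ := btw hO (n := 1) ht.1.1 (Finset.card_singleton a)
        (Finset.singleton_subset_iff.2 ht.2)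
      refine ⟨x, y, hxy, fun e => ?_⟩
      rw [← h, Finset.singleton_subset_iff]
      exact ⟨fun k => ⟨k.1.1, k.1.2, k.2.2⟩, fun k => ⟨⟨k.1, k.2.1⟩, ht.1, k.2.2⟩⟩
    rw [sm_drop (Q := In X) fun e he hi => h1 e he.1 ⟨⟨a, he.2, ha⟩, hi⟩] at e0
    rw [← e0]
    exact sm_congr (fun e => by tauto) fun _ _ => rfl)
  let β : Finset X.V → ZMod 2 := fun t => if In X t then b t else am t
  have hβ : ∀ e, Sx X 2 e → Mt X.A e → sm (fun t => Sx X 3 t ∧ e ⊆ t) β = aw e := by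
    intro e he hm
    have s1 : sm (fun t => (Sx X 3 t ∧ e ⊆ t) ∧ ¬ In X t) β
        = sm (fun t => (Sx X 3 t ∧ Mix X t) ∧ e ⊆ t) am :=
      sm_congr (fun t => ⟨fun k => ⟨⟨k.1.1, Mt.mono hm k.1.2, k.2⟩, k.1.2⟩,
        fun k => ⟨⟨k.1.1, k.2⟩, k.1.2.2⟩⟩) fun t k => by simp [β, k.1.2.2]
    rw [sm_split _ (In X), s1]
    by_cases hi : In X e
    · have s2 : sm (fun t => (Sx X 3 t ∧ e ⊆ t) ∧ In X t) β = z e := by
        rw [hb e ⟨he, hi⟩]
        exact sm_congr (fun t => by tauto) fun t k => by simp [β, k.1.2]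
      rw [s2]
      simp only [z]
      generalize sm (fun t => (Sx X 3 t ∧ Mix X t) ∧ e ⊆ t) am = p, aw e = q
      revert p q; decide
    · rw [sm_zero fun t k => absurd (fun u hu => k.2 u (k.1.2 hu)) hi, zero_add]
      exact z2e.1 (h1 e he ⟨hm, hi⟩)
  obtain ⟨y, hy⟩ := rel_bound hO hL hH (β := β) fun e he hm h => by rw [hβ e he hm, hF e h]
  have h0 : ∀ t, Sx X 3 t → Mt X.A t → t ∉ X.F → β t + sm (fun T => Sx X 4 T ∧ t ⊆ T) y = 0 :=
    fun t ht hm h => by rw [← hy t ht hm h, z2]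
  refine ⟨y, fun t => β t + sm (fun T => Sx X 4 T ∧ t ⊆ T) y, fun t ht hm => ?_, h0,
    fun e he hm => ?_⟩
  · simp only [β, hm.2, if_false]
    generalize am t = p, sm (fun T => Sx X 4 T ∧ t ⊆ T) y = q
    revert p q; decide
  · have e1 : sm (fun t => Sx X 3 t ∧ e ⊆ t) (fun t => sm (fun T => Sx X 4 T ∧ t ⊆ T) y) = 0 := by
      rw [sm_comm _ (fun t T => Sx X 4 T ∧ t ⊆ T) (fun T => Sx X 4 T ∧ e ⊆ T) (fun _ T => y T)
        fun t T ht hT => ⟨hT.1, ht.2.trans hT.2⟩]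
      refine sm_zero fun T hT => sm_const_two ?_ _
      obtain ⟨x, y, hxy, h⟩ := btw hO (n := 2) hT.1 he.2 hT.2
      refine ⟨x, y, hxy, fun t => ?_⟩
      rw [← h]
      exact ⟨fun k => ⟨k.1.1, k.1.2, k.2.2⟩, fun k => ⟨⟨k.1, k.2.1⟩, hT.1, k.2.2⟩⟩
    have e2 := sm_add (fun t => Sx X 3 t ∧ e ⊆ t) β fun t => sm (fun T => Sx X 4 T ∧ t ⊆ T) y
    rw [e1, hβ e he hm, add_zero,
      sm_drop (Q := fun t => t ∈ X.F) fun t k h => h0 t k.1 (Mt.mono hm k.2) h] at e2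
    rw [← e2]
    exact sm_congr (fun t => by tauto) fun _ _ => rfl

/-- the mixed simplices -/
def Zm (X : Dat G) : Set (Finset X.V) := {σ | σ ∈ X.K ∧ Mix X σ}

/-- extension of a potential from the mixed edges to all mixed simplices -/
theorem ext_pot (hO : X.OK) {c : Finset X.V → Finset X.V → ZMod 2} (hc : Coc sub (Zm X) c)
    {β : Finset X.V → ZMod 2} (h : ∀ t, Sx X 3 t → Mix X t →
      sm (fun e => (Sx X 2 e ∧ Mix X e) ∧ e ⊆ t) (fun e => β e + c e t) = 0) :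
    ∃ l : Finset X.V → ZMod 2, (∀ x ∈ Zm X, ∀ y ∈ Zm X, x ⊆ y → l y = l x + c x y) ∧
      ∀ e, Sx X 2 e → Mix X e → l e = β e := by
  classical
  have ex : ∀ σ : Finset X.V, ∃ e, Mix X σ → e ⊆ σ ∧ e.card = 2 ∧ Mix X e := fun σ => by
    by_cases hm : Mix X σ
    · obtain ⟨a, ha, x, hx, hA, hx'⟩ := hm.ex
      exact ⟨{a, x}, fun _ => ⟨pair_sub ha hx, Finset.card_pair (fun h => hx' (h ▸ hA)),
        mix_pair hA hx'⟩⟩
    · exact ⟨σ, fun k => absurd k hm⟩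
  choose ed hed using ex
  have dn : ∀ σ ∈ Zm X, ∀ e, e ⊆ σ → Mix X e → e ∈ Zm X := fun σ hσ e s m =>
    ⟨hO.cxK.down σ hσ.1 e s (by obtain ⟨a, ha, -⟩ := m.1; exact ⟨a, ha⟩), m⟩
  have ind : ∀ σ ∈ Zm X, ∀ e, e ⊆ σ → e.card = 2 → Mix X e →
      β (ed σ) + c (ed σ) σ = β e + c e σ := by
    intro σ hσ e s ce m
    obtain ⟨k1, k2, k3⟩ := hed σ hσ.2
    refine mix_const (ψ := fun e => β e + c e σ) ?_ k1 s k2 ce k3 m
    intro t st ct e e' s s' ce ce' m m'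
    have tZ := dn σ hσ t st (m.mono s)
    have eZ := dn t tZ e s m
    have eZ' := dn t tZ e' s' m'
    obtain ⟨x, y, hxy, hh⟩ := two_mix hO ⟨tZ.1, ct⟩ tZ.2
    have h0 := h t ⟨tZ.1, ct⟩ tZ.2
    rw [sm_two hxy hh, z2e] at h0
    have : β e + c e t = β e' + c e' t := by
      rcases (hh e).1 ⟨⟨⟨eZ.1, ce⟩, m⟩, s⟩ with rfl | rfl <;>
        rcases (hh e').1 ⟨⟨⟨eZ'.1, ce'⟩, m'⟩, s'⟩ with k | k <;> simp [k, h0]
    simp only [hc e eZ t tZ σ hσ s st, hc e' eZ' t tZ σ hσ s' st, ← add_assoc, this]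
  refine ⟨fun σ => β (ed σ) + c (ed σ) σ, fun x hx y hy s => ?_, fun e he m => ?_⟩
  · obtain ⟨k1, k2, k3⟩ := hed x hx.2
    simp only [ind y hy (ed x) (k1.trans s) k2 k3, hc _ (dn x hx _ k1 k3) x hx y hy k1 s, add_assoc]
  · have h0 := hc e ⟨he.1, m⟩ e ⟨he.1, m⟩ e ⟨he.1, m⟩ subset_rfl subset_rfl
    simp only [ind e ⟨he.1, m⟩ e subset_rfl he.2 m, h0.trans (z2 _), add_zero]

end Crest.Agent.X212.Lt44
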