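import Crest.Agent.X212.Geo46.Api
import Crest.Agent.X212.Prd34.Top
import Crest.Agent.X212.Geo46.Defs
import Crest.Agent.X212.Thk1.PL
import Crest.Agent.X212.Srf12.Pol
import Crest.Agent.R096.Xp3_537

-- ▼ part X212/Geo46/In
section

/-!
# X212 / T layer: subdivision of `Geo`, the combinatorial input, the glue of road B (helper46)
-/

set_option autoImplicit false

open Set Metric Topology Filter
open scoped Classical

namespace Crest.Agent.X212.Geo46

open Crest.Agent.R096.Ce_537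
open Crest.Agent.X212.Prd34 (V P up fl Mf)
open Crest.Agent.X212.Lev33 (Coc Prim LCo)
open Crest.Agent.X212.Dsc4 (ROpen Ess)
open Crest.Agent.X212.Tw9 (Tri LTc SimpStmt)
open Crest.Agent.X212.Dsc37 (Dat Dom Mt Sf sd top H1On LtcStmt)

section Sd

variable {E : Type} [NormedAddCommGroup E] [NormedSpace ℝ E] {ι : Type} [Fintype ι] {X : Set E}

/-- `T'` is the barycentric subdivision of `T` -/
def IsSd (T : Tri ι X) (T' : Tri (Finset ι) X) : Prop :=
  simp T' = sd (simp T) ∧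
    (∀ y ∈ X, supp T y ∈ supp T' y ∧ ∀ σ ∈ supp T' y, σ ⊆ supp T y) ∧
    ∀ σ ∈ simp T, T'.pt σ ∈ X ∧ supp T (T'.pt σ) = σ

variable {T : Tri ι X} {T' : Tri (Finset ι) X}

theorem IsSd.sub (h : IsSd T T') {A : Set E} (hA : T.Sub A) : T'.Sub A :=
  sub_iff.2 fun y hy y' hy' hyA hs =>
    sub_iff.1 hA y hy y' hy' hyA ((h.2.1 y hy).2 _ (hs (h.2.1 y' hy').1))

theorem IsSd.vtx (h : IsSd T T') {σ : Finset ι} : {σ} ∈ simp T' ↔ σ ∈ simp T := by
  rw [h.1]; simp [sd]

theorem IsSd.simpIn_iff (h : IsSd T T') {A : Set E} (hA : T.Sub A) {r : Finset (Finset ι)} :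
    r ∈ simpIn T' A ↔ r ∈ simp T' ∧ ∀ σ ∈ r, σ ∈ simpIn T A := by
  constructor
  · rintro ⟨h1, h2⟩
    refine ⟨h1, fun σ hσ => ?_⟩
    have hv := vtx_of_mem T' h1 hσ
    have hs := h.2.2 σ (h.vtx.1 hv)
    rw [← hs.2]
    refine (supp_memIn hA hs.1).2 (h2 ⟨hs.1, fun u hu => ?_⟩)
    rw [supp_pt T' hv, Finset.mem_singleton] at hu
    rw [hu]; exact hσ
  · rintro ⟨h1, h2⟩
    exact ⟨h1, fun y hy => (supp_memIn hA hy.1).1 (h2 _ (hy.2 _ (h.2.1 y hy.1).1))⟩

theorem IsSd.simpIn (h : IsSd T T') {A : Set E} (hA : T.Sub A) :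
    simpIn T' A = sd (simpIn T A) := by
  ext r
  rw [h.simpIn_iff hA, h.1]
  exact ⟨fun ⟨a, b⟩ => ⟨a.1, b, a.2.2⟩, fun ⟨a, b, c⟩ => ⟨⟨a, fun σ hσ => (b σ hσ).1, c⟩, b⟩⟩

theorem IsSd.good (h : IsSd T T') {M : Set E} {σ : Finset ι} {a : ι} (ha : a ∈ σ)
    (hg : T.Good M a) : T'.Good M σ := fun y hy hp =>
  hg y hy ((mem_supp T).1 ((h.2.1 y hy).2 σ ((mem_supp T').2 hp) ha))

end Sd

theorem top_mem {ι : Type} [DecidableEq ι] {K : Set (Finset ι)} {r : Finset (Finset ι)}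
    (hr : r ∈ sd K) : top r ∈ r := by
  obtain ⟨m, hm, hmax⟩ := r.exists_max_image Finset.card hr.1
  have : top r = m := by
    apply Finset.Subset.antisymm
    · intro u hu
      obtain ⟨σ, hσ, huσ⟩ := Finset.mem_biUnion.1 hu
      rcases hr.2.2 σ hσ m hm with h | h
      · exact h huσ
      · rw [Finset.eq_of_subset_of_card_le h (hmax σ hσ)]; exact huσ
    · exact fun u hu => Finset.mem_biUnion.2 ⟨m, hm, hu⟩
  rw [this]; exact hm

theorem sub_top {ι : Type} [DecidableEq ι] {r : Finset (Finset ι)} {σ : Finset ι} (h : σ ∈ r) :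
    σ ⊆ top r := fun _ hu => Finset.mem_biUnion.2 ⟨σ, h, hu⟩

variable {Γ : Type} [Group Γ] {M dM : Set V} {c : V → V → Γ}

theorem Geo.sub1 (hS : SdStmt) {X : Dat (Additive Γ)} (G : Geo M dM c X) :
    Nonempty (Geo M dM c X.sub1) := by
  obtain ⟨T', h⟩ := hS V X.V G.Y G.T
  have h : IsSd G.T T' := h
  have key : ∀ r ∈ X.sub1.F, Mt X.sub1.A r → top r ∈ X.F ∧ Mt X.A (top r) := by
    intro r hr hm
    obtain ⟨σ, hσ, -, a, ha, haA⟩ := hm
    exact ⟨hr.2.1 _ (top_mem hr), a, sub_top hσ ha, haA⟩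
  have ho : ∀ r : Finset (Finset X.V), ost T' r ⊆ ost G.T (top r) := by
    intro r y hy
    refine ⟨hy.1, fun u hu => ?_⟩
    obtain ⟨σ, hσ, huσ⟩ := Finset.mem_biUnion.1 hu
    exact (h.2.1 y hy.1).2 σ (hy.2 hσ) huσ
  refine ⟨⟨G.Y, T', fun r => G.b (top r), G.YM, h.sub G.sub, ?_, ?_, ?_, ?_, ?_⟩⟩
  · show sd X.K = simp T'
    rw [h.1, G.hK]
  · show sd X.F = simpIn T' dM
    rw [h.simpIn G.sub, G.hF]
  · rintro σ ⟨-, a, ha, haA⟩
    exact h.good ha (G.good a haA)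
  · intro r hr hm
    exact (G.prim _ (key r hr hm).1 (key r hr hm).2).mono (inter_subset_inter_left _ (ho r))
  · intro r hr hm s hs hrs x hx
    exact G.geq _ (key r hr hm).1 (key r hr hm).2 _ (hs.2.1 _ (top_mem hs))
      (sub_top (hrs (top_mem hr))) x ⟨ho s hx.1, hx.2⟩

theorem Geo.subN (hS : SdStmt) {X : Dat (Additive Γ)} (G : Geo M dM c X) (n : ℕ) :
    Nonempty (Geo M dM c (X.subN n)) := by
  induction n with
  | zero => exact ⟨G⟩
  | succ n ih => obtain ⟨G'⟩ := ih; exact G'.sub1 hS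

/-- a triangulation and a set of good vertices give a `Geo` -/
theorem exists_geo (hc : Coc dM c) {ι : Type} [Fintype ι] [hd : DecidableEq ι] {Y : Set V} (T : Tri ι Y)
    (hY : Y ⊆ M) (hs : T.Sub dM) (A : Set ι) (hA : ∀ a ∈ A, T.Good M a) :
    ∃ (g : Finset ι → Finset ι → Additive Γ) (b : Finset ι → V → Γ), Nonempty (Geo M dM c
      ⟨ι, inferInstance, hd, simp T, simpIn T dM, A, g⟩) ∧
      (∀ σ ∈ simpIn T dM, Prim (ost T σ ∩ dM) c (b σ)) ∧
      ∀ σ ∈ simpIn T dM, ∀ ρ ∈ simpIn T dM, σ ⊆ ρ → ∀ x ∈ ost T ρ ∩ dM,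
        Additive.toMul (g σ ρ) = b σ x * (b ρ x)⁻¹ := by
  have hb : ∀ σ : Finset ι, ∃ b : V → Γ, σ ∈ simpIn T dM → Prim (ost T σ ∩ dM) c b := by
    intro σ
    by_cases hσ : σ ∈ simpIn T dM
    · have h1 := starConvex_ost hs (bar_spec T hσ.1).1
      rw [supp_bar T hσ.1] at h1
      obtain ⟨b, hb⟩ := (hc.mono inter_subset_right).prim_star (bar_mem_ost hσ) h1
      exact ⟨b, fun _ => hb⟩
    · exact ⟨fun _ => 1, fun h => absurd h hσ⟩
  choose b hb using hb
  have key : ∀ σ ∈ simpIn T dM, ∀ ρ ∈ simpIn T dM, σ ⊆ ρ → ∀ x ∈ ost T ρ ∩ dM,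
      b σ (bar T ρ) * (b ρ (bar T ρ))⁻¹ = b σ x * (b ρ x)⁻¹ := fun σ hσ ρ hρ hσρ x hx =>
    ((hb ρ hρ).lco ((hb σ hσ).mono (inter_subset_inter_left _ (ost_anti T hσρ)))).eq
      (preconn_ost hs hρ.1) (bar_mem_ost hρ) hx
  exact ⟨fun σ ρ => Additive.ofMul (b σ (bar T ρ) * (b ρ (bar T ρ))⁻¹), b,
    ⟨⟨Y, T, b, hY, hs, rfl, rfl, hA, fun σ hσ _ => hb σ hσ, fun σ hσ _ => key σ hσ⟩⟩, hb, key⟩

/-- the nerve of a family of sets -/
def nerve {κ Z : Type} (W : κ → Set Z) : Set (Finset κ) :=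
  {s | s.Nonempty ∧ ∃ z, ∀ i ∈ s, z ∈ W i}

theorem h1_nerve {κ : Type} {Q : Set P} (hQ : Convex ℝ Q) (W : κ → Set P)
    (hW : ∀ i, W i ⊆ Q) (ho : ∀ i, ∀ z ∈ W i, W i ∈ 𝓝[Q] z) (hcv : ∀ i, Convex ℝ (W i))
    (hne : ∀ i, (W i).Nonempty) (hcov : ∀ z ∈ Q, ∃ i, z ∈ W i) : H1On (nerve W) univ := by
  intro θ hθ
  have hθ' : ∀ z i j k, z ∈ W i → z ∈ W j → z ∈ W k → θ i k = θ i j + θ j k := by
    intro z i j k hi hj hk
    refine hθ {i, j, k} ⟨by simp, z, ?_⟩ i (by simp) j (by simp) k (by simp) trivial trivial trivial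
    intro l hl
    simp only [Finset.mem_insert, Finset.mem_singleton] at hl
    rcases hl with rfl | rfl | rfl <;> assumption
  rcases isEmpty_or_nonempty κ with hκ | hκ
  · exact ⟨fun _ => 0, fun σ _ x _ => hκ.elim x⟩
  have : ∀ z, ∃ i, z ∈ Q → z ∈ W i := fun z => by
    by_cases hz : z ∈ Q
    · obtain ⟨i, hi⟩ := hcov z hz; exact ⟨i, fun _ => hi⟩
    · exact ⟨Classical.arbitrary κ, fun h => absurd h hz⟩
  choose ix hix using this
  have hcoc : Coc Q (fun x y => Multiplicative.ofAdd (θ (ix x) (ix y))) := by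
    intro x hx
    filter_upwards [ho _ x (hix x hx), self_mem_nhdsWithin] with y hy hyQ
    filter_upwards [ho _ y hy, ho _ y (hix y hyQ), self_mem_nhdsWithin] with z h1 h2 h3
    rw [← ofAdd_add, hθ' z _ _ _ h1 h2 (hix z h3)]
  obtain ⟨β, hβ⟩ := hcoc.prim_convex hQ
  have hl : ∀ i, LCo (W i) (fun z => Multiplicative.toAdd (β z) + θ (ix z) i) := by
    intro i x hx
    have hxQ := hW i hx
    filter_upwards [nhdsWithin_mono x (hW i) (hβ x hxQ),
      nhdsWithin_mono x (hW i) (ho _ x (hix x hxQ)), self_mem_nhdsWithin] with y h1 h2 h3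
    have h1' : β y = β x * Multiplicative.ofAdd (θ (ix x) (ix y)) := h1
    rw [h1', toAdd_mul, toAdd_ofAdd, add_assoc, ← hθ' y _ _ _ h2 (hix y (hW i h3)) h3]
  choose p hp using hne
  refine ⟨fun i => Multiplicative.toAdd (β (p i)) + θ (ix (p i)) i, ?_⟩
  rintro σ ⟨-, z, hz⟩ i hi j hj - -
  have e1 := (hl i).eq (hcv i).isPreconnected (hp i) (hz i hi)
  have e2 := (hl j).eq (hcv j).isPreconnected (hp j) (hz j hj)
  have e3 := hθ' z _ _ _ (hix z (hW i (hz i hi))) (hz i hi) (hz j hj)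
  simp only at e1 e2 ⊢
  rw [e1, e2, e3]
  generalize Multiplicative.toAdd (β z) = a
  generalize θ (ix z) i = b
  generalize θ i j = d
  revert a b d
  decide

theorem preconn_sph : IsPreconnected (sph 2) :=
  (isConnected_sphere (E := P) (by simp) 0 zero_le_one).isPreconnected

theorem inStmt (hSi : SimpStmt) (hS : SdStmt) (hP : PushStmt) : InStmt := by
  intro Γ _ M dM c f0 hM hc f0c f0M f0d hne0
  obtain ⟨f, fc, fM, fe, fp⟩ := hP M dM f0 hM f0c f0M
  have hsc : sph 2 ⊆ cube 2 := sphere_subset_closedBall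
  have fd : MapsTo f (sph 2) dM := fun x hx => by rw [fe hx]; exact f0d hx
  have hne : ¬ ∃ b, Prim (sph 2) (fun x y => c (f x) (f y)) b := by
    rintro ⟨b, hb⟩
    refine hne0 ⟨b, hb.congr fun x hx => ?_⟩
    filter_upwards [self_mem_nhdsWithin] with y hy
    rw [fe hx, fe hy]
  obtain ⟨ι, _, Y, T0, hC, hY, hs0, hg0⟩ := hSi M dM (f '' cube 2) hM
    ((isCompact_closedBall 0 1).image_of_continuousOn fc) (image_subset_iff.2 fM)
  obtain ⟨T, h⟩ := hS V ι Y T0
  have h : IsSd T0 T := h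
  have hs : T.Sub dM := h.sub hs0
  have fY : ∀ x ∈ cube 2, f x ∈ Y := fun x hx => hC ⟨x, hx, rfl⟩
  -- the vertex and the radius chosen at a point of the square
  have hr : ∀ x : cube 2, ∃ r > 0, (∀ z ∈ ball x.1 r ∩ cube 2, supp T0 (f x) ∈ supp T (f z)) ∧
      (x.1 ∉ sph 2 → ∀ z ∈ ball x.1 r, z ∉ sph 2) := by
    intro x
    have h1 : ∀ᶠ z in 𝓝[cube 2] x.1, supp T (f x) ⊆ supp T (f z) :=
      ((fc x x.2).tendsto_nhdsWithin (t := Y) fY).eventually (ev_supp T (fY x x.2))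
    obtain ⟨r1, hr1, h1⟩ := Metric.mem_nhdsWithin_iff.1 h1
    have h2 : ∃ r2 > 0, x.1 ∉ sph 2 → ∀ z ∈ ball x.1 r2, z ∉ sph 2 := by
      by_cases hx : x.1 ∈ sph 2
      · exact ⟨1, one_pos, fun h => absurd hx h⟩
      · obtain ⟨r2, hr2, h2⟩ := Metric.isOpen_iff.1 (isClosed_sphere (x := (0 : P)) (ε := 1)).isOpen_compl
          x.1 hx
        exact ⟨r2, hr2, fun _ z hz => h2 hz⟩
    obtain ⟨r2, hr2, h2⟩ := h2
    refine ⟨min r1 r2, lt_min hr1 hr2, fun z hz => ?_, fun hx z hz => ?_⟩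
    · exact h1 ⟨ball_subset_ball (min_le_left _ _) hz.1, hz.2⟩ (h.2.1 _ (fY x x.2)).1
    · exact h2 hx z (ball_subset_ball (min_le_right _ _) hz)
  choose r hr0 hr1 hr2 using hr
  obtain ⟨t, ht⟩ := (isCompact_closedBall (0 : P) 1).elim_finite_subcover
    (fun x : cube 2 => ball x.1 (r x)) (fun _ => isOpen_ball)
    (fun x hx => mem_iUnion.2 ⟨⟨x, hx⟩, mem_ball_self (hr0 _)⟩)
  let W : t → Set P := fun i => ball i.1.1 (r i.1) ∩ cube 2
  let v : t → Finset ι := fun i => supp T0 (f i.1)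
  have hWo : ∀ i, ∀ z ∈ W i, W i ∈ 𝓝[cube 2] z := fun i z hz =>
    inter_mem (mem_nhdsWithin_of_mem_nhds (isOpen_ball.mem_nhds hz.1)) self_mem_nhdsWithin
  have hWc : ∀ i, i.1.1 ∈ W i := fun i => ⟨mem_ball_self (hr0 _), i.1.2⟩
  have hcov : ∀ z ∈ cube 2, ∃ i, z ∈ W i := by
    intro z hz
    obtain ⟨x, hx, hzx⟩ := mem_iUnion₂.1 (ht hz)
    exact ⟨⟨x, hx⟩, hzx, hz⟩
  have hv : ∀ i, ∀ z ∈ W i, v i ∈ supp T (f z) := fun i z hz => hr1 _ z hz
  have hvF : ∀ i, {v i} ∈ simpIn T dM ↔ i.1.1 ∈ sph 2 := by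
    intro i
    rw [h.simpIn_iff hs0, h.vtx]
    simp only [Finset.mem_singleton, forall_eq]
    rw [supp_memIn hs0 (fY _ i.1.2)]
    exact ⟨fun h' => fp _ i.1.2 h'.2, fun h' => ⟨supp_mem T0 (fY _ i.1.2), fd h'⟩⟩
  have hpair : ∀ i j, ∀ z ∈ sph 2, z ∈ W i → z ∈ W j →
      ({i, j} : Finset t) ∈ nerve W ∧ ({v i, v j} : Finset (Finset ι)) ∈ simpIn T dM ∧
        f z ∈ ost T {v i, v j} ∩ dM := by
    intro i j z hz hi hj
    have hsub : ({v i, v j} : Finset (Finset ι)) ⊆ supp T (f z) := by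
      intro u hu
      simp only [Finset.mem_insert, Finset.mem_singleton] at hu
      rcases hu with rfl | rfl
      · exact hv i z hi
      · exact hv j z hj
    refine ⟨⟨by simp, z, fun l hl => ?_⟩, memIn_of hs (fY z (hsc hz)) (fd hz) hsub (by simp),
      ⟨fY z (hsc hz), hsub⟩, fd hz⟩
    simp only [Finset.mem_insert, Finset.mem_singleton] at hl
    rcases hl with rfl | rfl <;> assumption
  have hsx : ∀ z : P, ∃ i : t, z ∈ sph 2 → z ∈ W i ∧ i.1.1 ∈ sph 2 := by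
    intro z
    by_cases hz : z ∈ sph 2
    · obtain ⟨i, hi⟩ := hcov z (hsc hz)
      exact ⟨i, fun _ => ⟨hi, by_contra fun hn => hr2 _ hn z hi.1 hz⟩⟩
    · obtain ⟨i, -⟩ := hcov 0 (mem_closedBall_self zero_le_one)
      exact ⟨i, fun h' => absurd h' hz⟩
  choose ix hix using hsx
  obtain ⟨g, b, G, hprim, hgeq⟩ := exists_geo (M := M) hc T hY hs (range v) (by
    rintro _ ⟨i, rfl⟩
    obtain ⟨a, ha⟩ := supp_ne T0 (fY _ i.1.2)
    exact h.good ha (hg0 a ⟨_, ⟨_, i.1.2, rfl⟩, (mem_supp T0).1 ha⟩))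
  refine ⟨_, G, ⟨⟨t, inferInstance, inferInstance, nerve W, v, ?_, ?_, fun i => ⟨i, rfl⟩,
    fun a ha => ha, ?_, ⟨?_, ?_⟩, ?_⟩⟩⟩
  · exact fun i => ⟨by simp, i.1.1, fun j hj => by rw [Finset.mem_singleton.1 hj]; exact hWc i⟩
  · rintro s ⟨hs1, z, hz⟩
    obtain ⟨i, hi⟩ := hs1
    refine ⟨⟨v i, Finset.mem_image.2 ⟨i, hi, rfl⟩⟩, f z, fY z (hz i hi).2, fun u hu => ?_⟩
    obtain ⟨j, hj, rfl⟩ := Finset.mem_image.1 hu
    exact hv j z (hz j hj)
  · exact h1_nerve (convex_closedBall 0 1) W (fun _ => inter_subset_right) hWo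
      (fun _ => (convex_ball _ _).inter (convex_closedBall 0 1)) (fun i => ⟨_, hWc i⟩) hcov
  · have : (fun _ => 1 : P) ∈ sph 2 := by simp [sph]
    exact ⟨ix _, (hvF _).2 (hix _ this).2⟩
  · intro κ hκ i hi j hj
    have hκ' : ∀ i j, ∀ z ∈ sph 2, i.1.1 ∈ sph 2 → j.1.1 ∈ sph 2 → z ∈ W i → z ∈ W j →
        (κ i ↔ κ j) := fun i j z hz h1 h2 h3 h4 =>
      hκ i ((hvF i).2 h1) j ((hvF j).2 h2) (by
        have := hpair i j z hz h3 h4
        exact ⟨this.1, this.2.1⟩)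
    have hl : LCo (sph 2) (fun z => κ (ix z)) := by
      intro x hx
      filter_upwards [nhdsWithin_mono x hsc (hWo _ x (hix x hx).1), self_mem_nhdsWithin]
        with y h1 h2
      exact propext (hκ' _ _ y h2 (hix y h2).2 (hix x hx).2 (hix y h2).1 h1)
    have hi' := (hvF i).1 hi
    have hj' := (hvF j).1 hj
    rw [hκ' i _ _ hi' hi' (hix _ hi').2 (hWc i) (hix _ hi').1,
      hκ' j _ _ hj' hj' (hix _ hj').2 (hWc j) (hix _ hj').1]
    exact (hl.eq preconn_sph hi' hj').to_iff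
  · rintro ⟨l, hl⟩
    refine hne ⟨fun z => Additive.toMul (l (ix z)) * b {v (ix z)} (f z), fun x hx => ?_⟩
    have hx' := hix x hx
    have hox : ∀ z ∈ sph 2, z ∈ W (ix x) → f z ∈ ost T {v (ix x)} ∩ dM := fun z hz h1 =>
      ⟨⟨fY z (hsc hz), Finset.singleton_subset_iff.2 (hv _ z h1)⟩, fd hz⟩
    have hp := (hprim _ ((hvF _).2 hx'.2)).comp (T := sph 2 ∩ W (ix x)) (f := f)
      (fc.mono (inter_subset_left.trans hsc)) (fun z hz => hox z hz.1 hz.2) x ⟨hx, hx'.1⟩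
    have hn := nhdsWithin_mono x hsc (hWo _ x hx'.1)
    rw [inter_comm, nhdsWithin_inter_of_mem hn] at hp
    filter_upwards [hp, hn, self_mem_nhdsWithin] with y h1 h2 h3
    have hy' := hix y h3
    obtain ⟨p1, p2, p3⟩ := hpair (ix x) (ix y) y h3 h2 hy'.1
    have e0 := congrArg Additive.toMul (hl _ _ p1 p2)
    have e1 := hgeq _ ((hvF _).2 hx'.2) _ p2 (by simp) _ p3
    have e2 := hgeq _ ((hvF _).2 hy'.2) _ p2 (by simp) _ p3
    simp only [toMul_add] at e0
    rw [e1, e2, ← mul_assoc, ← mul_assoc, mul_left_inj] at e0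
    have h1' : b {v (ix x)} (f y) = b {v (ix x)} (f x) * c (f x) (f y) := h1
    show _ * _ = _ * _ * _
    rw [← e0, h1', mul_assoc]

/-- road B: the cocycle form of the loop theorem -/
theorem ltc_of (hS : SdStmt) (hP : PushStmt) (hI : InStmt) (hL : LocStmt) (hT : LtcStmt)
    (hR : RealStmt) : LTc := by
  intro Γ _ M dM F c f0 hM ⟨A, hA, hF⟩ hc f0c f0M f0d hne0
  obtain ⟨f, fc, fM, fe, fp⟩ := hP M dM f0 hM f0c f0M
  have fd : MapsTo f (sph 2) F := fun x hx => by rw [fe hx]; exact f0d hx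
  have hne : ¬ ∃ b, Prim (sph 2) (fun x y => c (f x) (f y)) b := by
    rintro ⟨b, hb⟩
    refine hne0 ⟨b, hb.congr fun x hx => ?_⟩
    filter_upwards [self_mem_nhdsWithin] with y hy
    rw [fe hx, fe hy]
  have hU : IsOpen (A ∪ (M \ dM)) := hA.union hM.2.1
  have e : dM ∩ (A ∪ (M \ dM)) = F := by
    rw [hF]; ext x; simp only [mem_inter_iff, mem_union, Set.mem_sdiff]; tauto
  have hM' := Prd34.Mf.inter_open hM hU
  rw [e] at hM'
  have fM' : MapsTo f (cube 2) (M ∩ (A ∪ (M \ dM))) := by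
    intro x hx
    refine ⟨fM hx, ?_⟩
    by_cases h : f x ∈ dM
    · have := fd (fp x hx h)
      rw [hF] at this
      exact Or.inl this.1
    · exact Or.inr ⟨fM hx, h⟩
  obtain ⟨X, ⟨G⟩, ⟨D⟩⟩ := hI Γ _ F c f hM' hc fc fM' fd hne
  obtain ⟨h1, h2⟩ := hL Γ _ F c X hM' G
  obtain ⟨n, hn⟩ := hT _ X h1 h2 D
  obtain ⟨G'⟩ := G.subN hS n
  obtain ⟨D, d1, d2, d3, d4⟩ := hR Γ _ F c _ hM' G' hn
  have e' : D ∩ dM = D ∩ F := by
    rw [← e]
    ext x
    exact ⟨fun h => ⟨h.1, h.2, (d2 h.1).2⟩, fun h => ⟨h.1, h.2.1⟩⟩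
  exact ⟨D, by rw [e']; exact d1, d2.trans inter_subset_left, by rw [e']; exact d3,
    by rw [e']; exact d4⟩

theorem simp_of (h : Simp2Stmt) : SimpStmt := by
  intro M dM C hM hC hCM
  obtain ⟨ι, i, X, T, h1, h2, h3, -, h4⟩ := h M dM C ∅ hM hC hCM ⟨∅, finite_empty, by simp, by simp⟩
  exact ⟨ι, i, X, T, h1, h2, h3, h4⟩

end Crest.Agent.X212.Geo46
end

-- ▼ part X212/Gsd39/Sd
section

/-!
# X212 / Gsd39 (helper39): barycentric subdivision of a `Tw9.Tri` (`sdStmt : Geo46.SdStmt`)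
-/

set_option autoImplicit false
set_option linter.unusedSectionVars false

open Set Finset
open scoped Classical

noncomputable section

namespace Crest.Agent.X212.Gsd39

open Crest.Agent.R096.Ce_537 Crest.Agent.X212.Thk1 Crest.Agent.X212.Geo46
open Crest.Agent.X212.Tw9 (Tri)
open Crest.Agent.X212.Dsc37 (sd)

variable {ι : Type} [Fintype ι]

/-- the smallest value on `s` -/
def hi (s : Finset ι) (b : ι → ℝ) : ℝ := if h : s.Nonempty then s.inf' h b else 0

/-- the largest value off `s` -/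
def lo (s : Finset ι) (b : ι → ℝ) : ℝ := sᶜ.fold max 0 b

/-- the thickness of the layer `s` -/
def lay (s : Finset ι) (b : ι → ℝ) : ℝ := max 0 (hi s b - lo s b)

/-- the function with layers `a` -/
def cake (a : Finset ι → ℝ) (u : ι) : ℝ := ∑ s, if u ∈ s then a s else 0

/-- weights on a chain of non-empty sets -/
structure Chn (a : Finset ι → ℝ) : Prop where
  nn : ∀ s, 0 ≤ a s
  em : a ∅ = 0
  ch : ∀ s t, a s ≠ 0 → a t ≠ 0 → s ⊆ t ∨ t ⊆ s

variable {s t : Finset ι} {a : Finset ι → ℝ} {b : ι → ℝ} {u : ι}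

theorem hi_le (hu : u ∈ s) : hi s b ≤ b u := by
  rw [hi, dif_pos ⟨u, hu⟩]; exact inf'_le _ hu

theorem le_hi (h : s.Nonempty) {r : ℝ} (hr : ∀ u ∈ s, r ≤ b u) : r ≤ hi s b := by
  rw [hi, dif_pos h]; exact le_inf' _ _ hr

theorem le_lo (hu : u ∉ s) : b u ≤ lo s b := (le_fold_max _).2 (.inr ⟨u, mem_compl.2 hu, le_rfl⟩)

theorem lo_nonneg : 0 ≤ lo s b := (le_fold_max _).2 (.inl le_rfl)

theorem lo_le {r : ℝ} (h0 : 0 ≤ r) (hr : ∀ u ∉ s, b u ≤ r) : lo s b ≤ r :=
  (fold_max_le _).2 ⟨h0, fun u hu => hr u (mem_compl.1 hu)⟩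

theorem lay_nonneg : 0 ≤ lay s b := le_max_left _ _

theorem lt_of_lay (h : lay s b ≠ 0) : lo s b < hi s b :=
  sub_pos.1 (not_le.1 fun k => h (max_eq_left k))

theorem pos_of_lay (h : lay s b ≠ 0) (hu : u ∈ s) : 0 < b u :=
  (lo_nonneg.trans_lt (lt_of_lay h)).trans_le (hi_le hu)

theorem chn_lay (b : ι → ℝ) : Chn fun s => lay s b := by
  refine ⟨fun _ => lay_nonneg, max_eq_left (by simpa [hi] using lo_nonneg), fun s t hs ht => ?_⟩
  by_contra h
  obtain ⟨⟨u, h1, h2⟩, u', h3, h4⟩ := (not_or.1 h).imp Finset.not_subset.1 Finset.not_subset.1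
  linarith [lt_of_lay hs, lt_of_lay ht, hi_le (b := b) h1, hi_le (b := b) h3, le_lo (b := b) h2,
    le_lo (b := b) h4]

theorem ne_of_lay (h : lay s b ≠ 0) : s.Nonempty :=
  Finset.nonempty_iff_ne_empty.2 fun e => h (by rw [e]; exact (chn_lay b).em)

theorem cake_nonneg (h : ∀ s, 0 ≤ a s) (u : ι) : 0 ≤ cake a u :=
  sum_nonneg fun s _ => by split_ifs; exacts [h s, le_rfl]

theorem cake_le (h : ∀ s, 0 ≤ a s) (P : Finset ι → Prop) [DecidablePred P]
    (k : ∀ t, a t ≠ 0 → u ∈ t → P t) :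
    cake a u ≤ ∑ t, if P t then a t else 0 := sum_le_sum fun t _ => by
  by_cases h0 : a t = 0
  · simp [h0]
  · split_ifs with h1 h2
    exacts [le_rfl, (h2 (k t h0 h1)).elim, h t, le_rfl]

theorem le_cake (h : ∀ s, 0 ≤ a s) (P : Finset ι → Prop) [DecidablePred P]
    (k : ∀ t, a t ≠ 0 → P t → u ∈ t) :
    (∑ t, if P t then a t else 0) ≤ cake a u := sum_le_sum fun t _ => by
  by_cases h0 : a t = 0
  · simp [h0]
  · split_ifs with h1 h2
    exacts [le_rfl, (h2 (k t h0 h1)).elim, h t, le_rfl]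

/-- the layers of a cake -/
theorem Chn.lay_cake (h : Chn a) (s : Finset ι) : lay s (cake a) = a s := by
  rcases s.eq_empty_or_nonempty with rfl | hs
  · exact (chn_lay _).em.trans h.em.symm
  by_cases hc : ∀ t, a t ≠ 0 → s ⊆ t ∨ t ⊆ s
  · have e1 : hi s (cake a) = ∑ t, if s ⊆ t then a t else 0 := by
      refine le_antisymm ?_ (le_hi hs fun u hu => le_cake h.nn (s ⊆ ·) fun t _ k => k hu)
      by_cases h1 : (univ.filter fun t => a t ≠ 0 ∧ ¬s ⊆ t).Nonempty
      · obtain ⟨t, h2, h3⟩ := exists_max_image _ card h1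
        obtain ⟨u, h4, h5⟩ := Finset.not_subset.1 (mem_filter.1 h2).2.2
        refine (hi_le h4).trans (cake_le h.nn (s ⊆ ·) fun t' k1 k2 => not_not.1 fun k3 => h5 ?_)
        rcases h.ch t' t k1 (mem_filter.1 h2).2.1 with k | k
        · exact k k2
        · exact eq_of_subset_of_card_le k (h3 t' (mem_filter.2 ⟨mem_univ _, k1, k3⟩)) ▸ k2
      · obtain ⟨u, hu⟩ := hs
        exact (hi_le hu).trans (cake_le h.nn (s ⊆ ·) fun t k1 _ => not_not.1 fun k3 =>
          h1 ⟨t, mem_filter.2 ⟨mem_univ _, k1, k3⟩⟩)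
    have e2 : lo s (cake a) = ∑ t, if ¬t ⊆ s then a t else 0 := by
      refine le_antisymm (lo_le (sum_nonneg fun t _ => by split_ifs; exacts [le_rfl, h.nn t])
        fun u hu => cake_le h.nn (¬· ⊆ s) fun t _ k k' => hu (k' k)) ?_
      by_cases h1 : (univ.filter fun t => a t ≠ 0 ∧ ¬t ⊆ s).Nonempty
      · obtain ⟨t, h2, h3⟩ := exists_min_image _ card h1
        obtain ⟨u, h4, h5⟩ := Finset.not_subset.1 (mem_filter.1 h2).2.2
        refine (le_cake h.nn (¬· ⊆ s) fun t' k1 k2 => ?_).trans (le_lo h5)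
        rcases h.ch t t' (mem_filter.1 h2).2.1 k1 with k | k
        · exact k h4
        · exact (eq_of_subset_of_card_le k (h3 t' (mem_filter.2 ⟨mem_univ _, k1, k2⟩))).symm ▸ h4
      · refine (sum_eq_zero fun t _ => ?_).le.trans lo_nonneg
        split_ifs with k
        exacts [rfl, not_not.1 fun k1 => h1 ⟨t, mem_filter.2 ⟨mem_univ _, k1, k⟩⟩]
    rw [lay, e1, e2, ← sum_sub_distrib, sum_eq_single s, if_pos subset_rfl,
      if_neg (not_not.2 subset_rfl), sub_zero, max_eq_right (h.nn s)]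
    · intro t _ ht
      by_cases h0 : a t = 0
      · simp [h0]
      · rcases hc t h0 with k | k
        · rw [if_pos k, if_pos fun k' => ht (subset_antisymm k' k), sub_self]
        · rw [if_neg fun k' => ht (subset_antisymm k k'), if_neg (not_not.2 k), sub_self]
    · exact fun k => (k (mem_univ _)).elim
  · simp only [not_forall, not_or] at hc
    obtain ⟨t, h0, h1, h2⟩ := hc
    obtain ⟨u, h3, h4⟩ := Finset.not_subset.1 h1
    obtain ⟨u', h5, h6⟩ := Finset.not_subset.1 h2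
    have e : cake a u ≤ cake a u' :=
      cake_le h.nn (u' ∈ ·) fun t' k1 k2 => ((h.ch t' t k1 h0).resolve_left fun k => h4 (k k2)) h5
    rw [lay, max_eq_left (by linarith [hi_le (b := cake a) h3, le_lo (b := cake a) h6]), eq_comm]
    exact not_not.1 fun k => (h.ch s t k h0).elim h1 h2

theorem exists_cake (b : ι → ℝ) (hb : ∀ u, 0 ≤ b u) :
    ∃ a, Chn a ∧ (∀ s, a s ≠ 0 → ∀ u ∈ s, b u ≠ 0) ∧ cake a = b := by
  induction' hn : (univ.filter fun u => b u ≠ 0).card using Nat.strong_induction_on with n ih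
    generalizing b
  set s := univ.filter fun u => b u ≠ 0 with hs
  have ms : ∀ u, u ∈ s ↔ b u ≠ 0 := fun u => by simp [hs]
  rcases s.eq_empty_or_nonempty with h0 | h0
  · refine ⟨0, ⟨fun _ => le_rfl, rfl, fun _ _ h => (h rfl).elim⟩, fun _ h => (h rfl).elim,
      funext fun u => ?_⟩
    rw [show b u = 0 from not_not.1 fun k => by simpa [h0] using (ms u).2 k]
    simp [cake]
  obtain ⟨v, hv, hm⟩ := exists_min_image s b h0
  have sub : ∀ u, b u - (if u ∈ s then b v else 0) ≠ 0 → u ∈ s := fun u k => not_not.1 fun k' =>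
    k (by rw [if_neg k', sub_zero]; exact not_not.1 (mt (ms u).2 k'))
  obtain ⟨a, h1, h2, h3⟩ := ih _ (hn ▸ card_lt_card ⟨fun u k => sub u (mem_filter.1 k).2,
    fun k => (mem_filter.1 (k hv)).2 (by rw [if_pos hv, sub_self])⟩)
    (fun u => b u - if u ∈ s then b v else 0)
    (fun u => by split_ifs with k; exacts [sub_nonneg.2 (hm u k), by simpa using hb u]) rfl
  have k : ∀ t, a t + (if t = s then b v else 0) ≠ 0 → t = s ∨ (a t ≠ 0 ∧ t ⊆ s) := fun t ht => by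
    by_cases e : t = s
    · exact .inl e
    · rw [if_neg e, add_zero] at ht
      exact .inr ⟨ht, fun u hu => sub u (h2 t ht u hu)⟩
  refine ⟨fun t => a t + if t = s then b v else 0, ⟨fun t => add_nonneg (h1.nn t) (by
    split_ifs; exacts [hb v, le_rfl]), by rw [h1.em, if_neg h0.ne_empty.symm, add_zero],
    fun t t' ht ht' => ?_⟩, fun t ht u hu => (ms u).1 ?_, funext fun u => ?_⟩
  · rcases k t ht with rfl | k1 <;> rcases k t' ht' with rfl | k2
    exacts [.inl subset_rfl, .inr k2.2, .inl k1.2, h1.ch t t' k1.1 k2.1]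
  · rcases k t ht with rfl | k1
    exacts [hu, k1.2 hu]
  · have e := congrFun h3 u
    rw [eq_sub_iff_add_eq] at e
    rw [← e, cake, cake]
    simp only [ite_add_zero, sum_add_distrib]
    congr 1
    rw [sum_eq_single s (fun t _ ht => by simp [ht]) (by simp), if_pos rfl]

theorem cake_lay (hb : ∀ u, 0 ≤ b u) : cake (fun s => lay s b) = b := by
  obtain ⟨a, h, -, rfl⟩ := exists_cake b hb
  exact congrArg cake (funext h.lay_cake)

theorem lay_supp (h : (univ.filter fun u => 0 < b u).Nonempty) :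
    0 < lay (univ.filter fun u => 0 < b u) b := by
  obtain ⟨v, hv, hm⟩ := exists_min_image _ b h
  refine lt_max_of_lt_right ?_
  linarith [le_hi h hm, (mem_filter.1 hv).2,
    lo_le (s := univ.filter fun u => 0 < b u) (b := b) le_rfl fun u hu => by simpa using hu]

theorem sum_cake (a : Finset ι → ℝ) : ∑ u, cake a u = ∑ s, s.card * a s := by
  simp only [cake]
  rw [sum_comm]
  simp [sum_ite_mem]

variable {E : Type} [NormedAddCommGroup E] [NormedSpace ℝ E] {X : Set E}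

/-- barycentres -/
def bar (p : ι → E) (s : Finset ι) : E := ∑ u, (if u ∈ s then (s.card : ℝ)⁻¹ else 0) • p u

theorem sum_bar (p : ι → E) (a : Finset ι → ℝ) :
    ∑ s, (s.card * a s) • bar p s = ∑ u, cake a u • p u := by
  simp only [bar, cake, smul_sum, sum_smul, smul_smul]
  rw [sum_comm]
  refine sum_congr rfl fun u _ => sum_congr rfl fun s _ => ?_
  split_ifs with h
  · rw [mul_right_comm, mul_inv_cancel₀ (by exact_mod_cast (card_pos.2 ⟨u, h⟩).ne'), one_mul]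
  · rw [mul_zero]

theorem pl_lay {f : ι → E → ℝ} (hf : ∀ u, PLOn (f u) X) (s : Finset ι) :
    PLOn (fun y => lay s fun u => f u y) X := by
  have h0 : PLOn (fun _ : E => (0 : ℝ)) X := by simpa using pl_sum (∅ : Finset ι) (f := f) (by simp)
  refine pl_max h0 (pl_sub ?_ ?_)
  · by_cases h : s.Nonempty
    · simp only [hi, dif_pos h]
      induction h using Finset.Nonempty.cons_induction with
      | singleton u => simpa using hf u
      | cons u t hu ht ih => simpa only [inf'_cons ht] using pl_min (hf u) ih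
    · simpa only [hi, dif_neg h] using h0
  · simp only [lo]
    induction sᶜ using Finset.induction_on with
    | empty => simpa using h0
    | insert u t hu ih => simpa only [fold_insert hu] using pl_max (hf u) ih

variable (T : Tri ι X)

theorem pt_of {y : E} (hy : y ∈ X) (h : Chn a) (h1 : ∑ s, s.card * a s = 1)
    (hs : ∀ s, a s ≠ 0 → ∀ u ∈ s, T.be u y ≠ 0) : ∑ s, (s.card * a s) • bar T.pt s ∈ X ∧
      ∀ s, lay s (fun u => T.be u (∑ s, (s.card * a s) • bar T.pt s)) = a s := by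
  rw [sum_bar]
  obtain ⟨k1, k2⟩ := T.face y hy (cake a) (cake_nonneg h.nn) ((sum_cake a).trans h1) fun u hu =>
    sum_eq_zero fun s _ => by
      split_ifs with k
      exacts [not_not.1 fun k' => hs s k' u k hu, rfl]
  exact ⟨k1, fun s => by rw [funext k2, h.lay_cake]⟩

/-- the barycentric subdivision -/
def sub : Tri (Finset ι) X where
  pt := bar T.pt
  be s y := s.card * lay s fun u => T.be u y
  cpt := T.cpt
  pl s := pl_mul _ (pl_lay T.pl s)
  nn _ _ s := mul_nonneg s.card.cast_nonneg lay_nonneg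
  sum y hy := by rw [← sum_cake, cake_lay (T.nn y hy), T.sum y hy]
  rep y hy := by rw [sum_bar, cake_lay (T.nn y hy), T.rep y hy]
  face y hy w h0 h1 h2 := by
    have l : ∀ s, w s / s.card ≠ 0 → lay s (fun u => T.be u y) ≠ 0 := fun s k k' =>
      k (by rw [h2 s (by rw [k', mul_zero]), zero_div])
    have e : ∀ s : Finset ι, s.card * (w s / s.card) = w s := fun s => by
      rcases s.eq_empty_or_nonempty with rfl | k
      · rw [h2 ∅ (by simp), zero_div, mul_zero]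
      · exact mul_div_cancel₀ _ (by exact_mod_cast (card_pos.2 k).ne')
    have := pt_of T hy (a := fun s => w s / s.card)
      ⟨fun s => div_nonneg (h0 s) s.card.cast_nonneg, by simp,
        fun s t hs ht => (chn_lay _).ch s t (l s hs) (l t ht)⟩ (by simpa only [e] using h1)
      fun s hs u hu => (pos_of_lay (l s hs) hu).ne'
    simp only [e] at this
    exact ⟨this.1, fun s => by rw [this.2, e]⟩

theorem mem_supp {T : Tri ι X} {y : E} : u ∈ supp T y ↔ 0 < T.be u y := by simp [supp]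

theorem mem_supp_sub {y : E} : s ∈ supp (sub T) y ↔ lay s (fun u => T.be u y) ≠ 0 := by
  rw [mem_supp]
  refine ⟨fun h => right_ne_zero_of_mul h.ne', fun h => mul_pos ?_ (lay_nonneg.lt_of_ne' h)⟩
  exact_mod_cast card_pos.2 (ne_of_lay h)

theorem supp_nonempty {y : E} (hy : y ∈ X) : (supp T y).Nonempty := by
  obtain ⟨u, -, h⟩ := exists_ne_zero_of_sum_ne_zero ((T.sum y hy).trans_ne one_ne_zero)
  exact ⟨u, mem_supp.2 ((T.nn y hy u).lt_of_ne' h)⟩

theorem simp_sub : simp (sub T) = sd (simp T) := by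
  ext r
  refine ⟨fun ⟨h, y, hy, k⟩ => ⟨h, fun σ hσ => ?_, fun σ hσ ρ hρ => (chn_lay _).ch σ ρ
    ((mem_supp_sub T).1 (k hσ)) ((mem_supp_sub T).1 (k hρ))⟩, fun ⟨h, h1, h2⟩ => ⟨h, ?_⟩⟩
  · have l := (mem_supp_sub T).1 (k hσ)
    exact ⟨ne_of_lay l, y, hy, fun u hu => mem_supp.2 (pos_of_lay (b := fun u => T.be u y) l hu)⟩
  · obtain ⟨σ, h3, h4⟩ := exists_max_image r card h
    obtain ⟨-, y, hy, h5⟩ := h1 σ h3
    have cp : ∀ s ∈ r, (0 : ℝ) < s.card := fun s k => by exact_mod_cast card_pos.2 (h1 s k).1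
    have rp : (0 : ℝ) < r.card := by exact_mod_cast card_pos.2 h
    have mr : ∀ s, (if s ∈ r then ((r.card : ℝ) * s.card)⁻¹ else 0) ≠ 0 → s ∈ r := fun s k =>
      not_not.1 fun k' => k (if_neg k')
    obtain ⟨k1, k2⟩ := pt_of T hy (a := fun s => if s ∈ r then ((r.card : ℝ) * s.card)⁻¹ else 0)
      ⟨fun s => by split_ifs; exacts [by positivity, le_rfl], by simp,
        fun s t hs ht => h2 s (mr s hs) t (mr t ht)⟩ (by
        simp only [mul_ite, mul_zero, sum_ite_mem, Finset.univ_inter]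
        rw [sum_congr rfl (g := fun _ => (r.card : ℝ)⁻¹) fun s k => by
          have := cp s k
          field_simp, sum_const, nsmul_eq_mul, mul_inv_cancel₀ rp.ne'])
      fun s hs u hu => (mem_supp.1 (h5 (((h2 s (mr s hs) σ h3).elim id fun k =>
        (eq_of_subset_of_card_le k (h4 s (mr s hs))).ge) hu))).ne'
    refine ⟨_, k1, fun s hs => (mem_supp_sub T).2 ?_⟩
    rw [k2, if_pos hs]
    exact (inv_pos.2 (mul_pos rp (cp s hs))).ne'

theorem bar_mem {σ : Finset ι} (h : σ ∈ simp T) : bar T.pt σ ∈ X ∧ supp T (bar T.pt σ) = σ := by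
  obtain ⟨h0, y, hy, h1⟩ := h
  have cp : (0 : ℝ) < σ.card := by exact_mod_cast card_pos.2 h0
  obtain ⟨k1, k2⟩ := T.face y hy (fun u => if u ∈ σ then (σ.card : ℝ)⁻¹ else 0)
    (fun u => by split_ifs; exacts [by positivity, le_rfl])
    (by simp [sum_ite_mem, mul_inv_cancel₀ cp.ne'])
    fun u hu => if_neg fun k => (mem_supp.1 (h1 k)).ne' hu
  refine ⟨k1, Finset.ext fun u => ?_⟩
  rw [mem_supp, bar, k2]
  split_ifs with k
  exacts [iff_of_true (inv_pos.2 cp) k, iff_of_false (lt_irrefl _) k]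

/-- **(SD)** -/
theorem sdStmt : SdStmt := fun _ _ _ _ _ _ _ T =>
  ⟨sub T, simp_sub T, fun y hy => ⟨(mem_supp_sub T).2 (lay_supp (supp_nonempty T hy)).ne',
    fun _ h _ hu => mem_supp.2 (pos_of_lay (b := fun u => T.be u y) ((mem_supp_sub T).1 h) hu)⟩,
    fun _ h => bar_mem T h⟩

end Crest.Agent.X212.Gsd39
end
end

-- ▼ part X212/Lt44/Simp

/-!
# Loop theorem, geometric seam: triangulation of a neighbourhood of a compact set (helper44)
-/

set_option autoImplicit false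

open Set Metric Topology

namespace Crest.Agent.X212.Lt44

open Crest.Agent.R096 Crest.Agent.R096.Ce_537 Crest.Agent.R096.Xp_537
open Crest.Agent.X212.Prd34 (V P up fl Mf)
open Crest.Agent.X212.Tw9 (Tri SimpStmt)
open Crest.Agent.X212.Geo46 (Simp2Stmt)

section
variable {E : Type} [NormedAddCommGroup E] [NormedSpace ℝ E]

/-- every compact polyhedron is triangulated, finitely many polyhedra being subcomplexes -/
theorem exists_Tri [FiniteDimensional ℝ E] {S : Set E} (hS : Srf12.Poly S) {𝒜 : Set (Set E)}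
    (hf : 𝒜.Finite) (h𝒜 : ∀ B ∈ 𝒜, Srf12.Poly B) :
    ∃ (ι : Type) (_ : Fintype ι) (T : Tri ι S), ∀ B ∈ 𝒜, T.Sub B := by
  classical
  obtain ⟨Q, _, _, C, hC, hs, -⟩ := Srf12.exists_tri hS hf h𝒜 ∅
  have := Fintype.ofFinite Q
  have wt : ∀ y ∈ S, Wt (bc C y) ∧ bs C.b (bc C y) = y := fun y hy => by
    obtain ⟨q, hq⟩ := C.cover y hy
    exact ⟨(bc_spec C hq).1, (bc_spec C hq).2.1⟩
  have ebs : ∀ l : Q →₀ ℝ, ∑ u, l u • C.b u = bs C.b l := fun l =>
    (Finset.sum_subset (Finset.subset_univ _) fun u _ hu => by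
      rw [Finsupp.notMem_support_iff.1 hu, zero_smul]).symm
  have esum : ∀ l : Q →₀ ℝ, ∑ u, l u = ∑ u ∈ l.support, l u := fun l =>
    (Finset.sum_subset (Finset.subset_univ _) fun u _ hu => Finsupp.notMem_support_iff.1 hu).symm
  let T : Tri Q S :=
    { pt := C.b
      be := fun u y => bc C y u
      cpt := hS.isCompact
      pl := fun u => (plOn_biUnion (K := C.cell) univ (toFinite _) (fun q _ => plOn_bc C q u)
        fun q _ => (C.cpt q).isClosed).mono fun y hy => by simpa using C.cover y hy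
      nn := fun y hy u => (wt y hy).1.nn u
      sum := fun y hy => (esum _).trans (wt y hy).1.sum
      rep := fun y hy => (ebs _).trans (wt y hy).2
      face := fun y hy w h0 h1 h2 => by
        obtain ⟨q, hq⟩ := C.cover y hy
        let l : Q →₀ ℝ := Finsupp.equivFunOnFinite.symm w
        have sb : l.support ⊆ (bc C y).support := fun u hu =>
          Finsupp.mem_support_iff.2 fun h => Finsupp.mem_support_iff.1 hu (h2 u h)
        have hl : Wt l := ⟨h0, (esum l).symm.trans h1, fun u hu v hv =>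
          (wt y hy).1.chain u (sb hu) v (sb hv)⟩
        have e : ∑ u, w u • C.b u = bs C.b l := ebs l
        rw [e, bc_bs C hl]
        exact ⟨C.sub q (bs_mem C hl fun u hu => (bc_spec C hq).2.2 u (sb hu)), fun _ => rfl⟩ }
  refine ⟨Q, inferInstance, T, fun B hB y hy y' hy' hyB h => ?_⟩
  obtain ⟨q0, hq0⟩ := C.cover y hy
  obtain ⟨q, -, hq⟩ := hC.cx.exists_opn hq0
  refine hs B hB q y hq hyB ?_
  rw [← (wt y' hy').2]
  refine bs_mem C (wt y' hy').1 fun u hu => (bc_spec C hq.1).2.2 u ?_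
  exact Finsupp.mem_support_iff.2 fun k => Finsupp.mem_support_iff.1 hu (h u k)

/-- a vertex of the carrier of a point of a subcomplex lies in the subcomplex -/
theorem pt_mem {ι : Type} [Fintype ι] {S : Set E} (T : Tri ι S) {B : Set E} (hB : T.Sub B)
    {y : E} (hy : y ∈ S) (hyB : y ∈ B) {u : ι} (hu : 0 < T.be u y) : T.pt u ∈ B := by
  classical
  have h := T.face y hy (Pi.single u 1) (fun v => by
    by_cases k : v = u <;> simp [k]) (by simp) fun v hv => by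
      have : v ≠ u := fun k => hu.ne' (k ▸ hv)
      simp [this]
  have e : ∑ v, (Pi.single u 1 : ι → ℝ) v • T.pt v = T.pt u := by
    rw [Finset.sum_eq_single u] <;> simp +contextual
  rw [e] at h
  refine hB y hy _ h.1 hyB fun v hv => ?_
  have : v ≠ u := fun k => hu.ne' (k ▸ hv)
  simp [h.2 v, this]

end

theorem poly_cball (x : V) {r : ℝ} (hr : 0 < r) : Srf12.Poly (closedBall x r) := by
  have h := (Srf12.poly_cube 3).image (f := fun y : V => x + r • y)
    (plOn_affine (AffineMap.const ℝ V x + r • AffineMap.id ℝ V) _)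
  convert h using 1
  ext y
  simp only [mem_image, mem_closedBall, dist_eq_norm]
  constructor
  · intro hy
    refine ⟨r⁻¹ • (y - x), ?_, by rw [smul_inv_smul₀ hr.ne']; simp⟩
    rw [sub_zero, norm_smul, norm_inv, Real.norm_of_nonneg hr.le, inv_mul_le_iff₀ hr]
    simpa using hy
  · rintro ⟨z, hz, rfl⟩
    rw [add_sub_cancel_left, norm_smul, Real.norm_of_nonneg hr.le]
    rw [sub_zero] at hz
    nlinarith [norm_nonneg z]

theorem poly_up : Srf12.Poly (cube 3 ∩ up) :=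
  Srf12.poly_vp ((Cb_609.vp_cube 3).inter_nonneg
    (LinearMap.proj (R := ℝ) (φ := fun _ : Fin 3 => ℝ) 2).toAffineMap)

theorem poly_fl : Srf12.Poly (cube 3 ∩ fl) :=
  (Srf12.poly_cube 3).preimage (plOn_affine
    (LinearMap.proj (R := ℝ) (φ := fun _ : Fin 3 => ℝ) 2).toAffineMap _)
    (Srf12.poly_singleton (0 : ℝ))

/-- polyhedral neighbourhoods in a PL manifold -/
theorem poly_nhd {M dM C : Set V} (hM : Mf M dM) (hC : IsCompact C) (hCM : C ⊆ M) :
    ∃ X, Srf12.Poly X ∧ Srf12.Poly (X ∩ dM) ∧ X ⊆ M ∧ ∀ y ∈ C, X ∈ 𝓝[M] y := by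
  have loc : ∀ x ∈ C, ∃ N, Srf12.Poly N ∧ Srf12.Poly (N ∩ dM) ∧ N ⊆ M ∧ N ∈ 𝓝[M] x := by
    intro x hx
    by_cases hd : x ∈ dM
    · obtain ⟨B, e, -, h2, h3, h4⟩ := hM.2.2 x hd
      refine ⟨B ∩ M, h3 ▸ poly_up.image (e.pf.mono inter_subset_left), ?_, inter_subset_right,
        Filter.inter_mem (mem_nhdsWithin_of_mem_nhds h2) self_mem_nhdsWithin⟩
      rw [inter_assoc, inter_eq_self_of_subset_right hM.1, h4]
      exact poly_fl.image (e.pf.mono inter_subset_left)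
    · obtain ⟨r, hr, h⟩ := nhds_basis_closedBall.mem_iff.1 (hM.2.1.mem_nhds ⟨hCM hx, hd⟩)
      refine ⟨closedBall x r, poly_cball x hr, ?_, fun y hy => (h hy).1,
        mem_nhdsWithin_of_mem_nhds (closedBall_mem_nhds x hr)⟩
      rw [eq_empty_of_forall_notMem (s := closedBall x r ∩ dM) fun y hy => (h hy.1).2 hy.2]
      exact Srf12.poly_empty
  choose! N h1 h2 h3 h4 using loc
  have ex : ∀ x ∈ C, ∃ O, IsOpen O ∧ x ∈ O ∧ O ∩ M ⊆ N x := fun x hx =>
    mem_nhdsWithin.1 (h4 x hx)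
  choose! O o1 o2 o3 using ex
  obtain ⟨t, ht, hcov⟩ := hC.elim_nhds_subcover O fun x hx => (o1 x hx).mem_nhds (o2 x hx)
  refine ⟨⋃ x ∈ (t : Set V), N x, Srf12.poly_biUnion t.finite_toSet fun x hx => h1 x (ht x hx), ?_,
    iUnion₂_subset fun x hx => h3 x (ht x hx), fun y hy => ?_⟩
  · rw [iUnion₂_inter]
    exact Srf12.poly_biUnion t.finite_toSet fun x hx => h2 x (ht x hx)
  · obtain ⟨x, hx, hyx⟩ := mem_iUnion₂.1 (hcov hy)
    exact mem_nhdsWithin.2 ⟨O x, o1 x (ht x hx), hyx,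
      (o3 x (ht x hx)).trans (subset_biUnion_of_mem (u := N) hx)⟩

/-- **(SIMP2)** -/
theorem simp2Stmt : Simp2Stmt := by
  intro M dM C Q hM hC hCM hQ
  obtain ⟨X0, a1, -, a3, a4⟩ := poly_nhd hM hC hCM
  obtain ⟨X1, b1, b2, b3, b4⟩ := poly_nhd hM a1.isCompact a3
  obtain ⟨X2, c1, -, c3, c4⟩ := poly_nhd hM b1.isCompact b3
  obtain ⟨ι, _, T, hT⟩ := exists_Tri b1 (𝒜 := {X0, X1 ∩ dM, Q, closure (X2 \ X1)}) (toFinite _)
    (by
      rintro B (rfl | rfl | rfl | rfl)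
      exacts [a1, b2, hQ, c1.closure_diff b1])
  have C0 : C ⊆ X0 := fun x hx => mem_of_mem_nhdsWithin (hCM hx) (a4 x hx)
  have C1 : X0 ⊆ X1 := fun x hx => mem_of_mem_nhdsWithin (a3 hx) (b4 x hx)
  refine ⟨ι, inferInstance, X1, T, C0.trans C1, b3,
    fun y hy y' hy' k h => (hT (X1 ∩ dM) (by simp) y hy y' hy' ⟨hy, k⟩ h).2, hT Q (by simp), ?_⟩
  rintro u ⟨x, hx, hu⟩ y hy hyu
  have p0 := pt_mem T (hT X0 (by simp)) (C1 (C0 hx)) (C0 hx) hu
  have nz : y ∉ closure (X2 \ X1) := fun k => by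
    have p1 := pt_mem T (hT _ (by simp)) hy k hyu
    obtain ⟨O, o1, o2, o3⟩ := mem_nhdsWithin.1 (b4 _ p0)
    obtain ⟨z, z1, z2⟩ := mem_closure_iff.1 p1 O o1 o2
    exact z2.2 (o3 ⟨z1, c3 z2.1⟩)
  filter_upwards [c4 y hy, mem_nhdsWithin_of_mem_nhds (isClosed_closure.isOpen_compl.mem_nhds nz)]
    with z z1 z2
  exact by_contra fun k => z2 (subset_closure ⟨z1, k⟩)

/-- **(SIMP)** -/
theorem simpStmt : SimpStmt := fun M dM C hM hC hCM => by
  obtain ⟨ι, _, X, T, h1, h2, h3, -, h4⟩ := simp2Stmt M dM C ∅ hM hC hCM Srf12.poly_empty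
  exact ⟨ι, inferInstance, X, T, h1, h2, h3, h4⟩

end Crest.Agent.X212.Lt44
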